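import Vale.Agent.H30.NS.Core

/-!
Closure properties of `CRat` (rational-valued functions computable through triples of
naturals), for the P113 development.  The operations on triples (`tAdd`, `tNeg`, `tMul`, `tInv`,
...) and their `ratOf` identities are exported for reuse.
-/

namespace Vale.Agent.H7

open Vale.Agent.H30

/-- Triples of naturals a, b, d coding the rational (a - b) / (d + 1). -/
abbrev T3 : Type := ℕ × ℕ × ℕ

/-- Sum on triples. -/
def tAdd (p q : T3) : T3 :=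
  (p.1 * (q.2.2 + 1) + q.1 * (p.2.2 + 1), p.2.1 * (q.2.2 + 1) + q.2.1 * (p.2.2 + 1),
    p.2.2 * q.2.2 + p.2.2 + q.2.2)

/-- Negation on triples. -/
def tNeg (p : T3) : T3 := (p.2.1, p.1, p.2.2)

/-- Product on triples. -/
def tMul (p q : T3) : T3 :=
  (p.1 * q.1 + p.2.1 * q.2.1, p.1 * q.2.1 + p.2.1 * q.1, p.2.2 * q.2.2 + p.2.2 + q.2.2)

/-- Inverse on triples (the inverse of zero is zero). -/
def tInv (p : T3) : T3 :=
  if p.2.1 < p.1 then (p.2.2 + 1, 0, p.1 - p.2.1 - 1)
  else if p.1 < p.2.1 then (0, p.2.2 + 1, p.2.1 - p.1 - 1) else (0, 0, 0)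

/-- The triple of a natural number. -/
def tNat (n : ℕ) : T3 := (n, 0, 0)

/-- Comparison on triples. -/
def tLe (p q : T3) : Bool :=
  decide (p.1 * (q.2.2 + 1) + q.2.1 * (p.2.2 + 1) ≤ q.1 * (p.2.2 + 1) + p.2.1 * (q.2.2 + 1))

/-- Strict comparison on triples. -/
def tLt (p q : T3) : Bool :=
  decide (p.1 * (q.2.2 + 1) + q.2.1 * (p.2.2 + 1) < q.1 * (p.2.2 + 1) + p.2.1 * (q.2.2 + 1))

/-- Natural floor on triples. -/
def tFloor (p : T3) : ℕ := (p.1 - p.2.1) / (p.2.2 + 1)

/-- Fractional part on triples. -/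
def tFract (p : T3) : T3 :=
  if p.2.1 ≤ p.1 then ((p.1 - p.2.1) % (p.2.2 + 1), 0, p.2.2)
  else ((p.2.2 + 1) * ((p.2.1 - p.1 + p.2.2) / (p.2.2 + 1)) - (p.2.1 - p.1), 0, p.2.2)

theorem ratOf_tAdd (p q : T3) : ratOf (tAdd p q) = ratOf p + ratOf q := by
  obtain ⟨a, b, d⟩ := p
  obtain ⟨a', b', d'⟩ := q
  simp only [ratOf, tAdd]
  push_cast
  have h1 : (d : ℚ) + 1 ≠ 0 := by positivity
  have h2 : (d' : ℚ) + 1 ≠ 0 := by positivity
  have h3 : (d : ℚ) * d' + d + d' + 1 ≠ 0 := by positivity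
  field_simp
  ring

theorem ratOf_tNeg (p : T3) : ratOf (tNeg p) = - ratOf p := by
  obtain ⟨a, b, d⟩ := p
  simp only [ratOf, tNeg]
  ring

theorem ratOf_tMul (p q : T3) : ratOf (tMul p q) = ratOf p * ratOf q := by
  obtain ⟨a, b, d⟩ := p
  obtain ⟨a', b', d'⟩ := q
  simp only [ratOf, tMul]
  push_cast
  have h1 : (d : ℚ) + 1 ≠ 0 := by positivity
  have h2 : (d' : ℚ) + 1 ≠ 0 := by positivity
  have h3 : (d : ℚ) * d' + d + d' + 1 ≠ 0 := by positivity
  field_simp
  ring

theorem ratOf_tInv (p : T3) : ratOf (tInv p) = (ratOf p)⁻¹ := by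
  obtain ⟨a, b, d⟩ := p
  have h1 : (d : ℚ) + 1 ≠ 0 := by positivity
  rcases lt_trichotomy a b with h | h | h
  · have hc : ((b - a - 1 : ℕ) : ℚ) + 1 = (b : ℚ) - a := by
      have : b - a - 1 + 1 = b - a := by omega
      rw [← Nat.cast_sub h.le]
      exact_mod_cast this
    have hne : (a : ℚ) - b ≠ 0 := by
      have : (a : ℚ) < b := by exact_mod_cast h
      linarith
    have hne' : (b : ℚ) - a ≠ 0 := by
      have : (a : ℚ) < b := by exact_mod_cast h
      linarith
    have ht : tInv (a, b, d) = (0, d + 1, b - a - 1) := by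
      simp only [tInv]
      rw [if_neg (by omega), if_pos h]
    rw [ht]
    simp only [ratOf]
    rw [hc]
    push_cast
    field_simp
    ring
  · subst h
    simp [ratOf, tInv]
  · have hc : ((a - b - 1 : ℕ) : ℚ) + 1 = (a : ℚ) - b := by
      have : a - b - 1 + 1 = a - b := by omega
      rw [← Nat.cast_sub h.le]
      exact_mod_cast this
    have hne : (a : ℚ) - b ≠ 0 := by
      have : (b : ℚ) < a := by exact_mod_cast h
      linarith
    have ht : tInv (a, b, d) = (d + 1, 0, a - b - 1) := by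
      simp only [tInv]
      rw [if_pos h]
    rw [ht]
    simp only [ratOf]
    rw [hc]
    push_cast
    field_simp
    ring

theorem ratOf_tNat (n : ℕ) : ratOf (tNat n) = (n : ℚ) := by
  simp [ratOf, tNat]

theorem tLe_iff (p q : T3) : tLe p q = true ↔ ratOf p ≤ ratOf q := by
  obtain ⟨a, b, d⟩ := p
  obtain ⟨a', b', d'⟩ := q
  simp only [ratOf, tLe, decide_eq_true_eq]
  have h1 : (0 : ℚ) < (d : ℚ) + 1 := by positivity
  have h2 : (0 : ℚ) < (d' : ℚ) + 1 := by positivity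
  rw [div_le_div_iff₀ h1 h2]
  constructor
  · intro h
    have h' : ((a * (d' + 1) + b' * (d + 1) : ℕ) : ℚ) ≤ ((a' * (d + 1) + b * (d' + 1) : ℕ) : ℚ) := by
      exact_mod_cast h
    push_cast at h'
    linarith
  · intro h
    have h' : ((a * (d' + 1) + b' * (d + 1) : ℕ) : ℚ) ≤ ((a' * (d + 1) + b * (d' + 1) : ℕ) : ℚ) := by
      push_cast
      linarith
    exact_mod_cast h'

theorem tLt_iff (p q : T3) : tLt p q = true ↔ ratOf p < ratOf q := by
  obtain ⟨a, b, d⟩ := p
  obtain ⟨a', b', d'⟩ := q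
  simp only [ratOf, tLt, decide_eq_true_eq]
  have h1 : (0 : ℚ) < (d : ℚ) + 1 := by positivity
  have h2 : (0 : ℚ) < (d' : ℚ) + 1 := by positivity
  rw [div_lt_div_iff₀ h1 h2]
  constructor
  · intro h
    have h' : ((a * (d' + 1) + b' * (d + 1) : ℕ) : ℚ) < ((a' * (d + 1) + b * (d' + 1) : ℕ) : ℚ) := by
      exact_mod_cast h
    push_cast at h'
    linarith
  · intro h
    have h' : ((a * (d' + 1) + b' * (d + 1) : ℕ) : ℚ) < ((a' * (d + 1) + b * (d' + 1) : ℕ) : ℚ) := by
      push_cast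
      linarith
    exact_mod_cast h'

theorem tFloor_eq (p : T3) : tFloor p = ⌊ratOf p⌋₊ := by
  obtain ⟨a, b, d⟩ := p
  simp only [ratOf, tFloor]
  rcases le_or_gt b a with h | h
  · have e : ((a : ℚ) - (b : ℚ)) / ((d : ℚ) + 1) = ((a - b : ℕ) : ℚ) / ((d + 1 : ℕ) : ℚ) := by
      rw [Nat.cast_sub h]
      push_cast
      rfl
    rw [e, Nat.floor_div_eq_div]
  · have e : a - b = 0 := by omega
    have hneg : ((a : ℚ) - (b : ℚ)) / ((d : ℚ) + 1) ≤ 0 := by
      apply div_nonpos_of_nonpos_of_nonneg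
      · have : (a : ℚ) < (b : ℚ) := by exact_mod_cast h
        linarith
      · positivity
    rw [e, Nat.zero_div, Nat.floor_of_nonpos hneg]

theorem ratOf_tFract (p : T3) : ratOf (tFract p) = Int.fract (ratOf p) := by
  obtain ⟨a, b, d⟩ := p
  symm
  rw [Int.fract_eq_iff]
  simp only [ratOf, tFract]
  have h1 : (0 : ℚ) < (d : ℚ) + 1 := by positivity
  rcases le_or_gt b a with h | h
  · simp only [if_pos h]
    obtain ⟨k, rfl⟩ := Nat.exists_eq_add_of_le h
    have e : b + k - b = k := by omega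
    rw [e]
    have hm : k % (d + 1) < d + 1 := Nat.mod_lt _ (Nat.succ_pos d)
    have hdm : (d + 1) * (k / (d + 1)) + k % (d + 1) = k := Nat.div_add_mod k (d + 1)
    have hdmq : ((d : ℚ) + 1) * ((k / (d + 1) : ℕ) : ℚ) + ((k % (d + 1) : ℕ) : ℚ) = (k : ℚ) := by
      exact_mod_cast hdm
    refine ⟨?_, ?_, ⟨((k / (d + 1) : ℕ) : ℤ), ?_⟩⟩
    · apply div_nonneg
      · simp
      · exact h1.le
    · rw [div_lt_one h1]
      have : ((k % (d + 1) : ℕ) : ℚ) < ((d + 1 : ℕ) : ℚ) := by exact_mod_cast hm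
      push_cast at this
      simpa using this
    · have hk : ((b + k : ℕ) : ℚ) - (b : ℚ) = (k : ℚ) := by
        push_cast
        ring
      rw [hk]
      simp only [Nat.cast_zero, sub_zero, Int.cast_natCast]
      rw [← sub_div, div_eq_iff h1.ne']
      linarith
  · have hn : ¬ (b ≤ a) := by omega
    simp only [if_neg hn]
    obtain ⟨k, rfl⟩ := Nat.exists_eq_add_of_lt h
    have e : a + k + 1 - a = k + 1 := by omega
    rw [e]
    set q := (k + 1 + d) / (d + 1) with hq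
    have hm : (k + 1 + d) % (d + 1) < d + 1 := Nat.mod_lt _ (Nat.succ_pos d)
    have hdm : (d + 1) * q + (k + 1 + d) % (d + 1) = k + 1 + d := Nat.div_add_mod (k + 1 + d) (d + 1)
    have hle : k + 1 ≤ (d + 1) * q := by omega
    have hlt : (d + 1) * q < k + 1 + (d + 1) := by omega
    have hsub : (((d + 1) * q - (k + 1) : ℕ) : ℚ) = ((d : ℚ) + 1) * (q : ℚ) - ((k : ℚ) + 1) := by
      rw [Nat.cast_sub hle]
      push_cast
      ring
    have hleq : (k : ℚ) + 1 ≤ ((d : ℚ) + 1) * (q : ℚ) := by exact_mod_cast hle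
    have hltq : ((d : ℚ) + 1) * (q : ℚ) < (k : ℚ) + 1 + ((d : ℚ) + 1) := by exact_mod_cast hlt
    refine ⟨?_, ?_, ⟨-((q : ℕ) : ℤ), ?_⟩⟩
    · apply div_nonneg
      · rw [hsub]; simp only [Nat.cast_zero, sub_zero]; linarith
      · exact h1.le
    · rw [div_lt_one h1, hsub]
      simp only [Nat.cast_zero, sub_zero]
      linarith
    · rw [hsub]
      push_cast
      field_simp
      ring

/-! ### Primitive recursiveness of the triple operations -/

section prim

private theorem hp1 : Primrec (fun pq : T3 × T3 => pq.1.1) := Primrec.fst.comp Primrec.fst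
private theorem hp2 : Primrec (fun pq : T3 × T3 => pq.1.2.1) :=
  Primrec.fst.comp (Primrec.snd.comp Primrec.fst)
private theorem hp3 : Primrec (fun pq : T3 × T3 => pq.1.2.2) :=
  Primrec.snd.comp (Primrec.snd.comp Primrec.fst)
private theorem hq1 : Primrec (fun pq : T3 × T3 => pq.2.1) := Primrec.fst.comp Primrec.snd
private theorem hq2 : Primrec (fun pq : T3 × T3 => pq.2.2.1) :=
  Primrec.fst.comp (Primrec.snd.comp Primrec.snd)
private theorem hq3 : Primrec (fun pq : T3 × T3 => pq.2.2.2) :=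
  Primrec.snd.comp (Primrec.snd.comp Primrec.snd)

private theorem h1 : Primrec (fun p : T3 => p.1) := Primrec.fst
private theorem h2 : Primrec (fun p : T3 => p.2.1) := Primrec.fst.comp Primrec.snd
private theorem h3 : Primrec (fun p : T3 => p.2.2) := Primrec.snd.comp Primrec.snd

variable {γ : Type} [Primcodable γ]

private theorem padd {f g : γ → ℕ} (hf : Primrec f) (hg : Primrec g) :
    Primrec (fun x => f x + g x) := Primrec.nat_add.comp hf hg
private theorem pmul {f g : γ → ℕ} (hf : Primrec f) (hg : Primrec g) :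
    Primrec (fun x => f x * g x) := Primrec.nat_mul.comp hf hg
private theorem psub {f g : γ → ℕ} (hf : Primrec f) (hg : Primrec g) :
    Primrec (fun x => f x - g x) := Primrec.nat_sub.comp hf hg
private theorem pdiv {f g : γ → ℕ} (hf : Primrec f) (hg : Primrec g) :
    Primrec (fun x => f x / g x) := Primrec.nat_div.comp hf hg
private theorem pmod {f g : γ → ℕ} (hf : Primrec f) (hg : Primrec g) :
    Primrec (fun x => f x % g x) := Primrec.nat_mod.comp hf hg
private theorem psucc {f : γ → ℕ} (hf : Primrec f) :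
    Primrec (fun x => f x + 1) := Primrec.succ.comp hf

theorem primrec_tAdd : Primrec₂ tAdd :=
  Primrec.pair (padd (pmul hp1 (psucc hq3)) (pmul hq1 (psucc hp3)))
    (Primrec.pair (padd (pmul hp2 (psucc hq3)) (pmul hq2 (psucc hp3)))
      (padd (padd (pmul hp3 hq3) hp3) hq3))

theorem primrec_tNeg : Primrec tNeg :=
  Primrec.pair h2 (Primrec.pair h1 h3)

theorem primrec_tMul : Primrec₂ tMul :=
  Primrec.pair (padd (pmul hp1 hq1) (pmul hp2 hq2))
    (Primrec.pair (padd (pmul hp1 hq2) (pmul hp2 hq1))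
      (padd (padd (pmul hp3 hq3) hp3) hq3))

theorem primrec_tInv : Primrec tInv :=
  Primrec.ite (Primrec.nat_lt.comp h2 h1)
    (Primrec.pair (psucc h3) (Primrec.pair (Primrec.const 0)
      (psub (psub h1 h2) (Primrec.const 1))))
    (Primrec.ite (Primrec.nat_lt.comp h1 h2)
      (Primrec.pair (Primrec.const 0) (Primrec.pair (psucc h3)
        (psub (psub h2 h1) (Primrec.const 1))))
      (Primrec.const (0, 0, 0)))

theorem primrec_tNat : Primrec tNat :=
  Primrec.pair Primrec.id (Primrec.const (0, 0))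

theorem primrec_tLe : Primrec₂ tLe :=
  (Primrec.nat_le.comp (padd (pmul hp1 (psucc hq3)) (pmul hq2 (psucc hp3)))
    (padd (pmul hq1 (psucc hp3)) (pmul hp2 (psucc hq3)))).decide

theorem primrec_tLt : Primrec₂ tLt :=
  (Primrec.nat_lt.comp (padd (pmul hp1 (psucc hq3)) (pmul hq2 (psucc hp3)))
    (padd (pmul hq1 (psucc hp3)) (pmul hp2 (psucc hq3)))).decide

theorem primrec_tFloor : Primrec tFloor :=
  pdiv (psub h1 h2) (psucc h3)

theorem primrec_tFract : Primrec tFract :=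
  Primrec.ite (Primrec.nat_le.comp h2 h1)
    (Primrec.pair (pmod (psub h1 h2) (psucc h3)) (Primrec.pair (Primrec.const 0) h3))
    (Primrec.pair (psub (pmul (psucc h3) (pdiv (padd (psub h2 h1) h3) (psucc h3))) (psub h2 h1))
      (Primrec.pair (Primrec.const 0) h3))

end prim

/-! ### The closure lemmas -/

section
variable {α β : Type} [Primcodable α] [Primcodable β]

theorem exists_ratOf (q : ℚ) : ∃ t : T3, ratOf t = q := by
  refine ⟨(q.num.toNat, (-q.num).toNat, q.den - 1), ?_⟩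
  simp only [ratOf]
  have h1 : ((q.num.toNat : ℤ) : ℚ) - (((-q.num).toNat : ℤ) : ℚ) = (q.num : ℚ) := by
    have := Int.toNat_sub_toNat_neg q.num
    exact_mod_cast congrArg (Int.cast : ℤ → ℚ) this
  have h2 : ((q.den - 1 : ℕ) : ℚ) + 1 = (q.den : ℚ) := by
    have : q.den - 1 + 1 = q.den := Nat.sub_add_cancel q.den_pos
    exact_mod_cast this
  rw [h2]
  have h1' : ((q.num.toNat : ℕ) : ℚ) - (((-q.num).toNat : ℕ) : ℚ) = (q.num : ℚ) := by
    exact_mod_cast h1
  rw [h1']
  exact Rat.num_div_den q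

theorem CRat.const (q : ℚ) : CRat (fun _ : α => q) := by
  obtain ⟨t, ht⟩ := exists_ratOf q
  exact ⟨fun _ => t, Computable.const t, fun _ => ht⟩

theorem CRat.ratOf : CRat (fun q : ℕ × ℕ × ℕ => ratOf q) :=
  ⟨fun q => q, Computable.id, fun _ => rfl⟩

theorem CRat.natCast {n : α → ℕ} (hn : Computable n) : CRat (fun x => (n x : ℚ)) :=
  ⟨fun x => tNat (n x), primrec_tNat.to_comp.comp hn, fun x => ratOf_tNat (n x)⟩

theorem CRat.comp {r : β → ℚ} (hr : CRat r) {g : α → β} (hg : Computable g) :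
    CRat (fun x => r (g x)) := by
  obtain ⟨R, hR, hRr⟩ := hr
  exact ⟨fun x => R (g x), hR.comp hg, fun x => hRr (g x)⟩

theorem CRat.add {r s : α → ℚ} (hr : CRat r) (hs : CRat s) : CRat (fun x => r x + s x) := by
  obtain ⟨R, hR, hRr⟩ := hr
  obtain ⟨S, hS, hSs⟩ := hs
  exact ⟨fun x => tAdd (R x) (S x), primrec_tAdd.to_comp.comp hR hS,
    fun x => by rw [ratOf_tAdd, hRr, hSs]⟩

theorem CRat.neg {r : α → ℚ} (hr : CRat r) : CRat (fun x => - r x) := by
  obtain ⟨R, hR, hRr⟩ := hr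
  exact ⟨fun x => tNeg (R x), primrec_tNeg.to_comp.comp hR, fun x => by rw [ratOf_tNeg, hRr]⟩

theorem CRat.sub {r s : α → ℚ} (hr : CRat r) (hs : CRat s) : CRat (fun x => r x - s x) := by
  have h := CRat.add hr (CRat.neg hs)
  simpa [sub_eq_add_neg] using h

theorem CRat.mul {r s : α → ℚ} (hr : CRat r) (hs : CRat s) : CRat (fun x => r x * s x) := by
  obtain ⟨R, hR, hRr⟩ := hr
  obtain ⟨S, hS, hSs⟩ := hs
  exact ⟨fun x => tMul (R x) (S x), primrec_tMul.to_comp.comp hR hS,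
    fun x => by rw [ratOf_tMul, hRr, hSs]⟩

theorem CRat.inv {r : α → ℚ} (hr : CRat r) : CRat (fun x => (r x)⁻¹) := by
  obtain ⟨R, hR, hRr⟩ := hr
  exact ⟨fun x => tInv (R x), primrec_tInv.to_comp.comp hR, fun x => by rw [ratOf_tInv, hRr]⟩

theorem CRat.div {r s : α → ℚ} (hr : CRat r) (hs : CRat s) : CRat (fun x => r x / s x) := by
  have h := CRat.mul hr (CRat.inv hs)
  simpa [div_eq_mul_inv] using h

theorem CRat.ite {c : α → Bool} (hc : Computable c) {r s : α → ℚ} (hr : CRat r) (hs : CRat s) :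
    CRat (fun x => if c x then r x else s x) := by
  obtain ⟨R, hR, hRr⟩ := hr
  obtain ⟨S, hS, hSs⟩ := hs
  refine ⟨fun x => bif c x then R x else S x, Computable.cond hc hR hS, fun x => ?_⟩
  cases h : c x <;> simp [h, hRr, hSs]

theorem CRat.decide_le {r s : α → ℚ} (hr : CRat r) (hs : CRat s) :
    Computable (fun x => decide (r x ≤ s x)) := by
  obtain ⟨R, hR, hRr⟩ := hr
  obtain ⟨S, hS, hSs⟩ := hs
  refine (primrec_tLe.to_comp.comp hR hS).of_eq fun x => ?_
  rw [Bool.eq_iff_iff, tLe_iff, hRr, hSs]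
  simp

theorem CRat.decide_lt {r s : α → ℚ} (hr : CRat r) (hs : CRat s) :
    Computable (fun x => decide (r x < s x)) := by
  obtain ⟨R, hR, hRr⟩ := hr
  obtain ⟨S, hS, hSs⟩ := hs
  refine (primrec_tLt.to_comp.comp hR hS).of_eq fun x => ?_
  rw [Bool.eq_iff_iff, tLt_iff, hRr, hSs]
  simp

theorem CRat.floor {r : α → ℚ} (hr : CRat r) : Computable (fun x => ⌊r x⌋₊) := by
  obtain ⟨R, hR, hRr⟩ := hr
  exact (primrec_tFloor.to_comp.comp hR).of_eq fun x => by rw [tFloor_eq, hRr]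

theorem CRat.fract {r : α → ℚ} (hr : CRat r) : CRat (fun x => Int.fract (r x)) := by
  obtain ⟨R, hR, hRr⟩ := hr
  exact ⟨fun x => tFract (R x), primrec_tFract.to_comp.comp hR,
    fun x => by rw [ratOf_tFract, hRr]⟩

theorem CRat.pow {r : α → ℚ} (hr : CRat r) {n : α → ℕ} (hn : Computable n) :
    CRat (fun x => r x ^ n x) := by
  obtain ⟨R, hR, hRr⟩ := hr
  have hh : Computable₂ (fun (a : α) (p : ℕ × T3) => tMul p.2 (R a)) :=
    primrec_tMul.to_comp.comp (Computable.snd.comp Computable.snd) (hR.comp Computable.fst)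
  refine ⟨fun x => Nat.rec (motive := fun _ => T3) (tNat 1) (fun y IH => tMul IH (R x)) (n x),
    Computable.nat_rec hn (Computable.const (tNat 1)) hh, fun x => ?_⟩
  have key : ∀ m : ℕ, Vale.Agent.H30.ratOf
      (Nat.rec (motive := fun _ => T3) (tNat 1) (fun y IH => tMul IH (R x)) m) = r x ^ m := by
    intro m
    induction m with
    | zero => simp [ratOf_tNat]
    | succ m ih =>
      show Vale.Agent.H30.ratOf (tMul _ (R x)) = r x ^ (m + 1)
      rw [ratOf_tMul, ih, hRr, pow_succ]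
  exact key (n x)

/-- finite sums -/
theorem CRat.sum {r : α → ℕ → ℚ} (hr : CRat (fun p : α × ℕ => r p.1 p.2)) {n : α → ℕ}
    (hn : Computable n) : CRat (fun x => ∑ i ∈ Finset.range (n x), r x i) := by
  obtain ⟨R, hR, hRr⟩ := hr
  have hh : Computable₂ (fun (a : α) (p : ℕ × T3) => tAdd p.2 (R (a, p.1))) :=
    primrec_tAdd.to_comp.comp (Computable.snd.comp Computable.snd)
      (hR.comp (Computable.pair Computable.fst (Computable.fst.comp Computable.snd)))
  refine ⟨fun x => Nat.rec (motive := fun _ => T3) (tNat 0) (fun y IH => tAdd IH (R (x, y))) (n x),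
    Computable.nat_rec hn (Computable.const (tNat 0)) hh, fun x => ?_⟩
  have key : ∀ m : ℕ, Vale.Agent.H30.ratOf
      (Nat.rec (motive := fun _ => T3) (tNat 0) (fun y IH => tAdd IH (R (x, y))) m)
        = ∑ i ∈ Finset.range m, r x i := by
    intro m
    induction m with
    | zero => simp [ratOf_tNat]
    | succ m ih =>
      show Vale.Agent.H30.ratOf (tAdd _ (R (x, m))) = _
      rw [ratOf_tAdd, ih, hRr, Finset.sum_range_succ]
  exact key (n x)

/-- two-term recursions: the state is a pair of rationals -/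
theorem CRat.rec2 {i₁ i₂ : α → ℚ} (h₁ : CRat i₁) (h₂ : CRat i₂) {s₁ s₂ : α → ℕ → ℚ → ℚ → ℚ}
    (hs₁ : CRat (fun p : α × ℕ × (ℕ × ℕ × ℕ) × (ℕ × ℕ × ℕ) =>
      s₁ p.1 p.2.1 (Vale.Agent.H30.ratOf p.2.2.1) (Vale.Agent.H30.ratOf p.2.2.2)))
    (hs₂ : CRat (fun p : α × ℕ × (ℕ × ℕ × ℕ) × (ℕ × ℕ × ℕ) =>
      s₂ p.1 p.2.1 (Vale.Agent.H30.ratOf p.2.2.1) (Vale.Agent.H30.ratOf p.2.2.2)))
    {n : α → ℕ} (hn : Computable n) :
    CRat (fun x => (Nat.rec (motive := fun _ => ℚ × ℚ) (i₁ x, i₂ x)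
      (fun k st => (s₁ x k st.1 st.2, s₂ x k st.1 st.2)) (n x)).1) := by
  obtain ⟨I1, hI1, hI1r⟩ := h₁
  obtain ⟨I2, hI2, hI2r⟩ := h₂
  obtain ⟨S1, hS1, hS1r⟩ := hs₁
  obtain ⟨S2, hS2, hS2r⟩ := hs₂
  have harg : Computable (fun q : α × (ℕ × (T3 × T3)) => (q.1, q.2.1, q.2.2.1, q.2.2.2)) :=
    Computable.pair Computable.fst (Computable.pair (Computable.fst.comp Computable.snd)
      (Computable.snd.comp Computable.snd))
  have hh : Computable₂ (fun (a : α) (p : ℕ × (T3 × T3)) =>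
      (S1 (a, p.1, p.2.1, p.2.2), S2 (a, p.1, p.2.1, p.2.2))) :=
    (hS1.comp harg).pair (hS2.comp harg)
  refine ⟨fun x => (Nat.rec (motive := fun _ => T3 × T3) (I1 x, I2 x)
      (fun y IH => (S1 (x, y, IH.1, IH.2), S2 (x, y, IH.1, IH.2))) (n x)).1,
    Computable.fst.comp (Computable.nat_rec hn (hI1.pair hI2) hh), fun x => ?_⟩
  have key : ∀ m : ℕ,
      Vale.Agent.H30.ratOf (Nat.rec (motive := fun _ => T3 × T3) (I1 x, I2 x)
        (fun y IH => (S1 (x, y, IH.1, IH.2), S2 (x, y, IH.1, IH.2))) m).1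
        = (Nat.rec (motive := fun _ => ℚ × ℚ) (i₁ x, i₂ x)
          (fun k st => (s₁ x k st.1 st.2, s₂ x k st.1 st.2)) m).1 ∧
      Vale.Agent.H30.ratOf (Nat.rec (motive := fun _ => T3 × T3) (I1 x, I2 x)
        (fun y IH => (S1 (x, y, IH.1, IH.2), S2 (x, y, IH.1, IH.2))) m).2
        = (Nat.rec (motive := fun _ => ℚ × ℚ) (i₁ x, i₂ x)
          (fun k st => (s₁ x k st.1 st.2, s₂ x k st.1 st.2)) m).2 := by
    intro m
    induction m with
    | zero => exact ⟨hI1r x, hI2r x⟩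
    | succ m ih =>
      obtain ⟨ih1, ih2⟩ := ih
      constructor
      · show Vale.Agent.H30.ratOf (S1 (x, m, _, _)) = s₁ x m _ _
        rw [hS1r, ← ih1, ← ih2]
      · show Vale.Agent.H30.ratOf (S2 (x, m, _, _)) = s₂ x m _ _
        rw [hS2r, ← ih1, ← ih2]
  exact (key (n x)).1

end

end Vale.Agent.H7
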