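import Vale.Agent.H30.NS.Core

/-!
Closure properties of computable real-valued functions (`CReal`) for the P113 development.
-/

namespace Vale.Agent.H91

open Vale.Agent.H30

/-- Sum of two rationals coded as triples. -/
def tAdd (p q : ℕ × ℕ × ℕ) : ℕ × ℕ × ℕ :=
  (p.1 * (q.2.2 + 1) + q.1 * (p.2.2 + 1), p.2.1 * (q.2.2 + 1) + q.2.1 * (p.2.2 + 1),
    (p.2.2 + 1) * (q.2.2 + 1) - 1)

/-- Negation of a rational coded as a triple. -/
def tNeg (p : ℕ × ℕ × ℕ) : ℕ × ℕ × ℕ := (p.2.1, p.1, p.2.2)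

/-- Product of two rationals coded as triples. -/
def tMul (p q : ℕ × ℕ × ℕ) : ℕ × ℕ × ℕ :=
  (p.1 * q.1 + p.2.1 * q.2.1, p.1 * q.2.1 + p.2.1 * q.1, (p.2.2 + 1) * (q.2.2 + 1) - 1)

theorem cast_den (d e : ℕ) :
    (((d + 1) * (e + 1) - 1 : ℕ) : ℝ) + 1 = ((d : ℝ) + 1) * ((e : ℝ) + 1) := by
  have h : 1 ≤ (d + 1) * (e + 1) := Nat.mul_pos (Nat.succ_pos d) (Nat.succ_pos e)
  rw [Nat.cast_sub h]
  push_cast
  ring

theorem qv_tAdd (p q : ℕ × ℕ × ℕ) : qv (tAdd p q) = qv p + qv q := by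
  obtain ⟨a, b, d⟩ := p
  obtain ⟨a', b', d'⟩ := q
  simp only [qv, tAdd]
  rw [cast_den]
  have h1 : ((d : ℝ) + 1) ≠ 0 := by positivity
  have h2 : ((d' : ℝ) + 1) ≠ 0 := by positivity
  push_cast
  field_simp
  ring

theorem qv_tNeg (p : ℕ × ℕ × ℕ) : qv (tNeg p) = - qv p := by
  obtain ⟨a, b, d⟩ := p
  simp only [qv, tNeg]
  ring

theorem qv_tMul (p q : ℕ × ℕ × ℕ) : qv (tMul p q) = qv p * qv q := by
  obtain ⟨a, b, d⟩ := p
  obtain ⟨a', b', d'⟩ := q
  simp only [qv, tMul]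
  rw [cast_den]
  have h1 : ((d : ℝ) + 1) ≠ 0 := by positivity
  have h2 : ((d' : ℝ) + 1) ≠ 0 := by positivity
  push_cast
  field_simp
  ring

theorem abs_qv_le (p : ℕ × ℕ × ℕ) : |qv p| ≤ ((p.1 + p.2.1 : ℕ) : ℝ) := by
  obtain ⟨a, b, d⟩ := p
  simp only [qv]
  have hd : (1 : ℝ) ≤ (d : ℝ) + 1 := by
    have : (0 : ℝ) ≤ (d : ℝ) := Nat.cast_nonneg d
    linarith
  have ha : (0 : ℝ) ≤ (a : ℝ) := Nat.cast_nonneg a
  have hb : (0 : ℝ) ≤ (b : ℝ) := Nat.cast_nonneg b
  rw [abs_div, abs_of_pos (by linarith : (0 : ℝ) < (d : ℝ) + 1)]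
  have h1 : |(a : ℝ) - (b : ℝ)| ≤ (a : ℝ) + (b : ℝ) := by
    rw [abs_le]
    constructor <;> linarith
  calc |(a : ℝ) - (b : ℝ)| / ((d : ℝ) + 1) ≤ |(a : ℝ) - (b : ℝ)| / 1 := by
        apply div_le_div_of_nonneg_left (abs_nonneg _) one_pos hd
    _ = |(a : ℝ) - (b : ℝ)| := by rw [div_one]
    _ ≤ (a : ℝ) + (b : ℝ) := h1
    _ = ((a + b : ℕ) : ℝ) := by push_cast; ring

section primrec

private theorem p11 : Primrec (fun p : (ℕ × ℕ × ℕ) × (ℕ × ℕ × ℕ) => p.1.1) :=
  Primrec.fst.comp Primrec.fst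
private theorem p12 : Primrec (fun p : (ℕ × ℕ × ℕ) × (ℕ × ℕ × ℕ) => p.1.2.1) :=
  Primrec.fst.comp (Primrec.snd.comp Primrec.fst)
private theorem p13 : Primrec (fun p : (ℕ × ℕ × ℕ) × (ℕ × ℕ × ℕ) => p.1.2.2) :=
  Primrec.snd.comp (Primrec.snd.comp Primrec.fst)
private theorem p21 : Primrec (fun p : (ℕ × ℕ × ℕ) × (ℕ × ℕ × ℕ) => p.2.1) :=
  Primrec.fst.comp Primrec.snd
private theorem p22 : Primrec (fun p : (ℕ × ℕ × ℕ) × (ℕ × ℕ × ℕ) => p.2.2.1) :=
  Primrec.fst.comp (Primrec.snd.comp Primrec.snd)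
private theorem p23 : Primrec (fun p : (ℕ × ℕ × ℕ) × (ℕ × ℕ × ℕ) => p.2.2.2) :=
  Primrec.snd.comp (Primrec.snd.comp Primrec.snd)

theorem tAdd_primrec : Primrec₂ tAdd := by
  have hden : Primrec (fun p : (ℕ × ℕ × ℕ) × (ℕ × ℕ × ℕ) =>
      (p.1.2.2 + 1) * (p.2.2.2 + 1) - 1) :=
    Primrec.nat_sub.comp
      (Primrec.nat_mul.comp (Primrec.succ.comp p13) (Primrec.succ.comp p23)) (Primrec.const 1)
  have h1 : Primrec (fun p : (ℕ × ℕ × ℕ) × (ℕ × ℕ × ℕ) =>
      p.1.1 * (p.2.2.2 + 1) + p.2.1 * (p.1.2.2 + 1)) :=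
    Primrec.nat_add.comp (Primrec.nat_mul.comp p11 (Primrec.succ.comp p23))
      (Primrec.nat_mul.comp p21 (Primrec.succ.comp p13))
  have h2 : Primrec (fun p : (ℕ × ℕ × ℕ) × (ℕ × ℕ × ℕ) =>
      p.1.2.1 * (p.2.2.2 + 1) + p.2.2.1 * (p.1.2.2 + 1)) :=
    Primrec.nat_add.comp (Primrec.nat_mul.comp p12 (Primrec.succ.comp p23))
      (Primrec.nat_mul.comp p22 (Primrec.succ.comp p13))
  exact Primrec.pair h1 (Primrec.pair h2 hden)

theorem tNeg_primrec : Primrec tNeg :=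
  Primrec.pair (Primrec.fst.comp Primrec.snd)
    (Primrec.pair Primrec.fst (Primrec.snd.comp Primrec.snd))

theorem tMul_primrec : Primrec₂ tMul := by
  have hden : Primrec (fun p : (ℕ × ℕ × ℕ) × (ℕ × ℕ × ℕ) =>
      (p.1.2.2 + 1) * (p.2.2.2 + 1) - 1) :=
    Primrec.nat_sub.comp
      (Primrec.nat_mul.comp (Primrec.succ.comp p13) (Primrec.succ.comp p23)) (Primrec.const 1)
  have h1 : Primrec (fun p : (ℕ × ℕ × ℕ) × (ℕ × ℕ × ℕ) =>
      p.1.1 * p.2.1 + p.1.2.1 * p.2.2.1) :=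
    Primrec.nat_add.comp (Primrec.nat_mul.comp p11 p21) (Primrec.nat_mul.comp p12 p22)
  have h2 : Primrec (fun p : (ℕ × ℕ × ℕ) × (ℕ × ℕ × ℕ) =>
      p.1.1 * p.2.2.1 + p.1.2.1 * p.2.1) :=
    Primrec.nat_add.comp (Primrec.nat_mul.comp p11 p22) (Primrec.nat_mul.comp p12 p21)
  exact Primrec.pair h1 (Primrec.pair h2 hden)

end primrec

section
variable {α β : Type} [Primcodable α] [Primcodable β]

theorem CReal.of_rat {r : α → ℚ} (hr : CRat r) : CReal (fun x => ((r x : ℚ) : ℝ)) := by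
  obtain ⟨R, hR, hval⟩ := hr
  refine ⟨fun x _ => R x, hR.comp Computable.fst, ?_⟩
  intro x k
  rw [qv_eq_ratOf, hval, sub_self, abs_zero]
  positivity

theorem CReal.comp {F : β → ℝ} (hF : CReal F) {g : α → β} (hg : Computable g) :
    CReal (fun x => F (g x)) := by
  obtain ⟨A, hA, hval⟩ := hF
  refine ⟨fun x k => A (g x) k, hA.comp (hg.comp Computable.fst) Computable.snd, ?_⟩
  intro x k
  exact hval (g x) k

private theorem two_mul_add_one_comp :
    Computable (fun p : α × ℕ => 2 * p.2 + 1) :=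
  (Primrec.succ.comp (Primrec.nat_mul.comp (Primrec.const 2) Primrec.snd)).to_comp

private theorem half_bound (k : ℕ) :
    (1 : ℝ) / (((2 * k + 1 : ℕ) : ℝ) + 1) + 1 / (((2 * k + 1 : ℕ) : ℝ) + 1)
      = 1 / ((k : ℝ) + 1) := by
  have hk : (0 : ℝ) ≤ (k : ℝ) := Nat.cast_nonneg k
  push_cast
  field_simp
  ring

theorem CReal.add {F G : α → ℝ} (hF : CReal F) (hG : CReal G) :
    CReal (fun x => F x + G x) := by
  obtain ⟨A, hA, hvalA⟩ := hF
  obtain ⟨B, hB, hvalB⟩ := hG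
  refine ⟨fun x k => tAdd (A x (2 * k + 1)) (B x (2 * k + 1)), ?_, ?_⟩
  · exact tAdd_primrec.to_comp.comp (hA.comp Computable.fst two_mul_add_one_comp)
      (hB.comp Computable.fst two_mul_add_one_comp)
  · intro x k
    rw [qv_tAdd]
    have h1 := hvalA x (2 * k + 1)
    have h2 := hvalB x (2 * k + 1)
    calc |F x + G x - (qv (A x (2 * k + 1)) + qv (B x (2 * k + 1)))|
        = |(F x - qv (A x (2 * k + 1))) + (G x - qv (B x (2 * k + 1)))| := by ring_nf
      _ ≤ |F x - qv (A x (2 * k + 1))| + |G x - qv (B x (2 * k + 1))| := abs_add_le _ _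
      _ ≤ 1 / (((2 * k + 1 : ℕ) : ℝ) + 1) + 1 / (((2 * k + 1 : ℕ) : ℝ) + 1) := add_le_add h1 h2
      _ = 1 / ((k : ℝ) + 1) := half_bound k

theorem CReal.neg {F : α → ℝ} (hF : CReal F) : CReal (fun x => - F x) := by
  obtain ⟨A, hA, hvalA⟩ := hF
  refine ⟨fun x k => tNeg (A x k), tNeg_primrec.to_comp.comp hA, ?_⟩
  intro x k
  rw [qv_tNeg]
  have h1 := hvalA x k
  calc |-F x - -qv (A x k)| = |F x - qv (A x k)| := by
        rw [← abs_neg]; ring_nf
    _ ≤ 1 / ((k : ℝ) + 1) := h1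

theorem CReal.sub {F G : α → ℝ} (hF : CReal F) (hG : CReal G) :
    CReal (fun x => F x - G x) := by
  have h := CReal.add hF (CReal.neg hG)
  have heq : (fun x => F x - G x) = (fun x => F x + - G x) := by
    funext x
    ring
  rw [heq]
  exact h

theorem CReal.mul {F G : α → ℝ} (hF : CReal F) (hG : CReal G) :
    CReal (fun x => F x * G x) := by
  obtain ⟨A, hA, hvalA⟩ := hF
  obtain ⟨B, hB, hvalB⟩ := hG
  -- natural-number bounds for `|F x|` and `|G x|`
  let MF : α → ℕ := fun x => (A x 0).1 + (A x 0).2.1 + 1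
  let MG : α → ℕ := fun x => (B x 0).1 + (B x 0).2.1 + 1
  let K : α → ℕ → ℕ := fun x k => (k + 1) * (MF x + MG x + 1)
  have hA0 : Computable (fun x : α => A x 0) := hA.comp Computable.id (Computable.const 0)
  have hB0 : Computable (fun x : α => B x 0) := hB.comp Computable.id (Computable.const 0)
  have hMF : Computable MF :=
    (Primrec.succ.comp (Primrec.nat_add.comp Primrec.fst
      (Primrec.fst.comp Primrec.snd))).to_comp.comp hA0
  have hMG : Computable MG :=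
    (Primrec.succ.comp (Primrec.nat_add.comp Primrec.fst
      (Primrec.fst.comp Primrec.snd))).to_comp.comp hB0
  have hK : Computable₂ K := by
    have hsum : Computable (fun p : α × ℕ => MF p.1 + MG p.1 + 1) :=
      (Primrec.succ.comp Primrec.nat_add).to_comp.comp
        ((hMF.comp Computable.fst).pair (hMG.comp Computable.fst))
    exact (Primrec.nat_mul.to_comp).comp
      ((Primrec.succ.to_comp).comp Computable.snd) hsum
  refine ⟨fun x k => tMul (A x (K x k)) (B x (K x k)), ?_, ?_⟩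
  · exact tMul_primrec.to_comp.comp (hA.comp Computable.fst hK) (hB.comp Computable.fst hK)
  · intro x k
    rw [qv_tMul]
    set f := qv (A x (K x k)) with hf
    set g := qv (B x (K x k)) with hg
    have hFb : |F x| ≤ (MF x : ℝ) := by
      have h0 := hvalA x 0
      have h1 := abs_qv_le (A x 0)
      have h2 : |F x| ≤ |F x - qv (A x 0)| + |qv (A x 0)| := by
        have := abs_add_le (F x - qv (A x 0)) (qv (A x 0))
        simpa using this
      simp only [Nat.cast_zero, zero_add, div_one] at h0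
      have h3 : (MF x : ℝ) = (((A x 0).1 + (A x 0).2.1 : ℕ) : ℝ) + 1 := by
        simp only [MF]
        push_cast
        ring
      rw [h3]
      linarith
    have hGb : |G x| ≤ (MG x : ℝ) := by
      have h0 := hvalB x 0
      have h1 := abs_qv_le (B x 0)
      have h2 : |G x| ≤ |G x - qv (B x 0)| + |qv (B x 0)| := by
        have := abs_add_le (G x - qv (B x 0)) (qv (B x 0))
        simpa using this
      simp only [Nat.cast_zero, zero_add, div_one] at h0
      have h3 : (MG x : ℝ) = (((B x 0).1 + (B x 0).2.1 : ℕ) : ℝ) + 1 := by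
        simp only [MG]
        push_cast
        ring
      rw [h3]
      linarith
    have hkpos : (0 : ℝ) < (k : ℝ) + 1 := by positivity
    have hS : (1 : ℝ) ≤ (MF x : ℝ) + (MG x : ℝ) + 1 := by
      have h1 : (0 : ℝ) ≤ (MF x : ℝ) := Nat.cast_nonneg _
      have h2 : (0 : ℝ) ≤ (MG x : ℝ) := Nat.cast_nonneg _
      linarith
    set S : ℝ := (MF x : ℝ) + (MG x : ℝ) + 1 with hSdef
    have hKcast : ((K x k : ℕ) : ℝ) = ((k : ℝ) + 1) * S := by
      simp only [K, hSdef]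
      push_cast
      ring
    set ε : ℝ := 1 / (((K x k : ℕ) : ℝ) + 1) with hε
    have hεpos : 0 < ε := by positivity
    have hε1 : ε ≤ 1 := by
      rw [hε, div_le_one (by positivity)]
      have : (0 : ℝ) ≤ ((K x k : ℕ) : ℝ) := Nat.cast_nonneg _
      linarith
    have hεS : ε * S ≤ 1 / ((k : ℝ) + 1) := by
      rw [hε, hKcast]
      rw [div_mul_eq_mul_div, one_mul, div_le_div_iff₀ (by positivity) hkpos]
      nlinarith
    have hf' : |F x - f| ≤ ε := hvalA x (K x k)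
    have hg' : |G x - g| ≤ ε := hvalB x (K x k)
    have hgb : |g| ≤ (MG x : ℝ) + 1 := by
      have h2 : |g| ≤ |g - G x| + |G x| := by
        have := abs_add_le (g - G x) (G x)
        simpa using this
      rw [abs_sub_comm] at h2
      linarith
    calc |F x * G x - f * g| = |F x * (G x - g) + g * (F x - f)| := by ring_nf
      _ ≤ |F x * (G x - g)| + |g * (F x - f)| := abs_add_le _ _
      _ = |F x| * |G x - g| + |g| * |F x - f| := by rw [abs_mul, abs_mul]
      _ ≤ (MF x : ℝ) * ε + ((MG x : ℝ) + 1) * ε := by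
          apply add_le_add
          · exact mul_le_mul hFb hg' (abs_nonneg _) (Nat.cast_nonneg _)
          · exact mul_le_mul hgb hf' (abs_nonneg _) (by positivity)
      _ = ε * S := by rw [hSdef]; ring
      _ ≤ 1 / ((k : ℝ) + 1) := hεS

theorem CReal.ite {c : α → Bool} (hc : Computable c) {F G : α → ℝ} (hF : CReal F)
    (hG : CReal G) : CReal (fun x => if c x then F x else G x) := by
  obtain ⟨A, hA, hvalA⟩ := hF
  obtain ⟨B, hB, hvalB⟩ := hG
  refine ⟨fun x k => bif c x then A x k else B x k, ?_, ?_⟩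
  · exact Computable.cond (hc.comp Computable.fst) hA hB
  · intro x k
    cases hcx : c x with
    | true => simpa [hcx] using hvalA x k
    | false => simpa [hcx] using hvalB x k

/-- a limit with an explicit rate is computable -/
theorem CReal.of_limit {F : α → ℝ} {G : α → ℕ → ℝ} (hG : CReal (fun p : α × ℕ => G p.1 p.2))
    (h : ∀ x k, |F x - G x k| ≤ 1 / ((k : ℝ) + 1)) : CReal F := by
  obtain ⟨A, hA, hvalA⟩ := hG
  refine ⟨fun x k => A (x, 2 * k + 1) (2 * k + 1), ?_, ?_⟩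
  · exact hA.comp (Computable.fst.pair two_mul_add_one_comp) two_mul_add_one_comp
  · intro x k
    have h1 := h x (2 * k + 1)
    have h2 := hvalA (x, 2 * k + 1) (2 * k + 1)
    simp only at h2
    calc |F x - qv (A (x, 2 * k + 1) (2 * k + 1))|
        = |(F x - G x (2 * k + 1)) + (G x (2 * k + 1) - qv (A (x, 2 * k + 1) (2 * k + 1)))| := by
          ring_nf
      _ ≤ |F x - G x (2 * k + 1)| + |G x (2 * k + 1) - qv (A (x, 2 * k + 1) (2 * k + 1))| :=
          abs_add_le _ _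
      _ ≤ 1 / (((2 * k + 1 : ℕ) : ℝ) + 1) + 1 / (((2 * k + 1 : ℕ) : ℝ) + 1) := add_le_add h1 h2
      _ = 1 / ((k : ℝ) + 1) := half_bound k

/-- `exp` of a computable rational that is at most `1`, given computable rational
approximations of `exp` at rationals `≤ 1` (the statement of TASK EXP) as a hypothesis. -/
theorem CReal.exp_of
    (hexp : ∃ A : (ℕ × ℕ × ℕ) → ℕ → ℕ × ℕ × ℕ, Computable₂ A ∧
      ∀ (q : ℕ × ℕ × ℕ) (k : ℕ), qv q ≤ 1 →
        |Real.exp (qv q) - qv (A q k)| ≤ 1 / ((k : ℝ) + 1))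
    {r : α → ℚ} (hr : CRat r) (h1 : ∀ x, r x ≤ 1) :
    CReal (fun x => Real.exp ((r x : ℚ) : ℝ)) := by
  obtain ⟨A, hA, hvalA⟩ := hexp
  obtain ⟨R, hR, hval⟩ := hr
  refine ⟨fun x k => A (R x) k, hA.comp (hR.comp Computable.fst) Computable.snd, ?_⟩
  intro x k
  have hq : qv (R x) = ((r x : ℚ) : ℝ) := by rw [qv_eq_ratOf, hval]
  have hle : qv (R x) ≤ 1 := by
    rw [hq]
    exact_mod_cast h1 x
  have := hvalA (R x) k hle
  rw [hq] at this
  exact this

end

end Vale.Agent.H91
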