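import Vale.Agent.H30.NS.Core

/-!
TASK TM for P113: the halting-after-`T`-steps predicate `reach` is primitive recursive.
-/

namespace Vale.Agent.H97

open Vale.Agent.H30

/-- `tmStep` written with `Option.casesOn` and `cond`. -/
theorem tmStep_eq (M : MachineT) (c : ℕ × List ℕ × List ℕ) :
    tmStep M c = Option.casesOn (List.lookup (c.1, c.2.2.headI) M.2.2) c
      (fun r => Option.casesOn r.2.2 (r.1, c.2.1, r.2.1 :: c.2.2.tail)
        (fun b => cond b (r.1, r.2.1 :: c.2.1, c.2.2.tail)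
          (r.1, c.2.1.tail, c.2.1.headI :: r.2.1 :: c.2.2.tail))) := by
  unfold tmStep
  cases h : List.lookup (c.1, c.2.2.headI) M.2.2 with
  | none => rfl
  | some r =>
    obtain ⟨q, s, d⟩ := r
    cases d with
    | none => rfl
    | some b => cases b <;> rfl

/-- The two `BEq` instances on `ℕ × ℕ` agree. -/
theorem beq_inst_eq : (instBEqProd : BEq (ℕ × ℕ)) = instBEqOfDecidableEq := by
  have h : ∀ a b : ℕ × ℕ, @BEq.beq _ instBEqProd a b = @BEq.beq _ instBEqOfDecidableEq a b := by
    intro a b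
    rw [Bool.eq_iff_iff]
    rw [@beq_iff_eq _ instBEqProd, @beq_iff_eq _ instBEqOfDecidableEq]
  cases h1 : (instBEqProd : BEq (ℕ × ℕ)) with
  | mk f =>
    cases h2 : (instBEqOfDecidableEq : BEq (ℕ × ℕ)) with
    | mk g =>
      congr
      funext a b
      have := h a b
      rw [h1, h2] at this
      exact this

theorem tmStep_primrec : Primrec₂ tmStep := by
  have key : Primrec fun p : MachineT × (ℕ × List ℕ × List ℕ) => (p.2.1, p.2.2.2.headI) :=
    Primrec.pair (Primrec.fst.comp Primrec.snd)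
      (Primrec.list_headI.comp (Primrec.snd.comp (Primrec.snd.comp Primrec.snd)))
  have look : Primrec fun p : MachineT × (ℕ × List ℕ × List ℕ) =>
      List.lookup (p.2.1, p.2.2.2.headI) p.1.2.2 := by
    have h0 := Primrec.listLookup.comp key
      (Primrec.snd.comp (Primrec.snd.comp (Primrec.fst (α := MachineT)
        (β := ℕ × List ℕ × List ℕ))))
    rw [← beq_inst_eq] at h0
    exact h0
  -- components of `q : (machine × configuration) × rule`
  have hL : Primrec fun q : (MachineT × (ℕ × List ℕ × List ℕ)) × (ℕ × ℕ × Option Bool) =>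
      q.1.2.2.1 := Primrec.fst.comp (Primrec.snd.comp (Primrec.snd.comp Primrec.fst))
  have hR : Primrec fun q : (MachineT × (ℕ × List ℕ × List ℕ)) × (ℕ × ℕ × Option Bool) =>
      q.1.2.2.2 := Primrec.snd.comp (Primrec.snd.comp (Primrec.snd.comp Primrec.fst))
  have hq : Primrec fun q : (MachineT × (ℕ × List ℕ × List ℕ)) × (ℕ × ℕ × Option Bool) =>
      q.2.1 := Primrec.fst.comp Primrec.snd
  have hs : Primrec fun q : (MachineT × (ℕ × List ℕ × List ℕ)) × (ℕ × ℕ × Option Bool) =>
      q.2.2.1 := Primrec.fst.comp (Primrec.snd.comp Primrec.snd)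
  have hd : Primrec fun q : (MachineT × (ℕ × List ℕ × List ℕ)) × (ℕ × ℕ × Option Bool) =>
      q.2.2.2 := Primrec.snd.comp (Primrec.snd.comp Primrec.snd)
  have hstay : Primrec fun q : (MachineT × (ℕ × List ℕ × List ℕ)) × (ℕ × ℕ × Option Bool) =>
      (q.2.1, q.1.2.2.1, q.2.2.1 :: q.1.2.2.2.tail) :=
    Primrec.pair hq (Primrec.pair hL (Primrec.list_cons.comp hs (Primrec.list_tail.comp hR)))
  have hright : Primrec fun q : (MachineT × (ℕ × List ℕ × List ℕ)) × (ℕ × ℕ × Option Bool) =>
      (q.2.1, q.2.2.1 :: q.1.2.2.1, q.1.2.2.2.tail) :=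
    Primrec.pair hq (Primrec.pair (Primrec.list_cons.comp hs hL) (Primrec.list_tail.comp hR))
  have hleft : Primrec fun q : (MachineT × (ℕ × List ℕ × List ℕ)) × (ℕ × ℕ × Option Bool) =>
      (q.2.1, q.1.2.2.1.tail, q.1.2.2.1.headI :: q.2.2.1 :: q.1.2.2.2.tail) :=
    Primrec.pair hq (Primrec.pair (Primrec.list_tail.comp hL)
      (Primrec.list_cons.comp (Primrec.list_headI.comp hL)
        (Primrec.list_cons.comp hs (Primrec.list_tail.comp hR))))
  have hinner : Primrec₂ fun (p : MachineT × (ℕ × List ℕ × List ℕ)) (r : ℕ × ℕ × Option Bool) =>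
      (Option.casesOn r.2.2 (r.1, p.2.2.1, r.2.1 :: p.2.2.2.tail)
        (fun b => cond b (r.1, r.2.1 :: p.2.2.1, p.2.2.2.tail)
          (r.1, p.2.2.1.tail, p.2.2.1.headI :: r.2.1 :: p.2.2.2.tail)) :
        ℕ × List ℕ × List ℕ) := by
    refine Primrec.option_casesOn hd hstay ?_
    exact Primrec.cond Primrec.snd (hright.comp Primrec.fst) (hleft.comp Primrec.fst)
  exact (Primrec.option_casesOn look Primrec.snd hinner).of_eq fun p => (tmStep_eq p.1 p.2).symm

theorem reach_eq (n T : ℕ) :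
    reach n T = Option.casesOn (Encodable.decode n : Option (MachineT × List ℕ)) false
      (fun Mw => decide (∃ a ∈ Mw.1.2.1, a = ((tmStep Mw.1)^[T] (Mw.1.1, [], Mw.2)).1)) := by
  unfold reach
  cases h : (Encodable.decode n : Option (MachineT × List ℕ)) with
  | none => rfl
  | some Mw => simp

theorem reach_primrec : Primrec₂ reach := by
  have hmem : Primrec₂ fun (l : List ℕ) (b : ℕ) => decide (∃ a ∈ l, a = b) :=
    (PrimrecRel.exists_mem_list Primrec.eq).decide
  have hstep : Primrec₂ fun (x : (ℕ × ℕ) × (MachineT × List ℕ)) (c : ℕ × List ℕ × List ℕ) =>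
      tmStep x.2.1 c :=
    tmStep_primrec.comp (Primrec.fst.comp (Primrec.snd.comp Primrec.fst)) Primrec.snd
  have hinit : Primrec fun x : (ℕ × ℕ) × (MachineT × List ℕ) =>
      ((x.2.1.1, ([] : List ℕ), x.2.2) : ℕ × List ℕ × List ℕ) :=
    Primrec.pair (Primrec.fst.comp (Primrec.fst.comp Primrec.snd))
      (Primrec.pair (Primrec.const []) (Primrec.snd.comp Primrec.snd))
  have hiter : Primrec fun x : (ℕ × ℕ) × (MachineT × List ℕ) =>
      (tmStep x.2.1)^[x.1.2] (x.2.1.1, [], x.2.2) :=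
    Primrec.nat_iterate (Primrec.snd.comp Primrec.fst) hinit hstep
  have hhalt : Primrec fun x : (ℕ × ℕ) × (MachineT × List ℕ) => x.2.1.2.1 :=
    Primrec.fst.comp (Primrec.snd.comp (Primrec.fst.comp Primrec.snd))
  have hdec : Primrec₂ fun (a : ℕ × ℕ) (Mw : MachineT × List ℕ) =>
      decide (∃ s ∈ Mw.1.2.1, s = ((tmStep Mw.1)^[a.2] (Mw.1.1, [], Mw.2)).1) :=
    hmem.comp hhalt (Primrec.fst.comp hiter)
  have hdecode : Primrec fun a : ℕ × ℕ => (Encodable.decode a.1 : Option (MachineT × List ℕ)) :=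
    Primrec.decode.comp Primrec.fst
  exact (Primrec.option_casesOn hdecode (Primrec.const false) hdec).of_eq
    fun a => (reach_eq a.1 a.2).symm

end Vale.Agent.H97
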