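import Vale.Agent.H30.NS.Core

namespace Vale.Agent.H43

open Vale.Agent.H30

/-- Partial derivative of a function of the first coordinate only. -/
lemma pd_sep (c₁ c₂ : ℝ) (H₁ H₂ : ℝ → ℝ) (hH₁ : Differentiable ℝ H₁) (hH₂ : Differentiable ℝ H₂)
    (j : Fin 3) (x : R3) :
    pd j (fun y : R3 => c₁ * H₁ (y 0) + c₂ * H₂ (y 0)) x =
      if j = 0 then c₁ * deriv H₁ (x 0) + c₂ * deriv H₂ (x 0) else 0 := by
  have h1 : HasFDerivAt (fun y : R3 => H₁ (y 0))
      (deriv H₁ (x 0) • (ContinuousLinearMap.proj 0 : R3 →L[ℝ] ℝ)) x :=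
    (hH₁ (x 0)).hasDerivAt.comp_hasFDerivAt x (ContinuousLinearMap.proj 0 : R3 →L[ℝ] ℝ).hasFDerivAt
  have h2 : HasFDerivAt (fun y : R3 => H₂ (y 0))
      (deriv H₂ (x 0) • (ContinuousLinearMap.proj 0 : R3 →L[ℝ] ℝ)) x :=
    (hH₂ (x 0)).hasDerivAt.comp_hasFDerivAt x (ContinuousLinearMap.proj 0 : R3 →L[ℝ] ℝ).hasFDerivAt
  have h : HasFDerivAt (fun y : R3 => c₁ * H₁ (y 0) + c₂ * H₂ (y 0))
      (c₁ • (deriv H₁ (x 0) • (ContinuousLinearMap.proj 0 : R3 →L[ℝ] ℝ)) +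
        c₂ • (deriv H₂ (x 0) • (ContinuousLinearMap.proj 0 : R3 →L[ℝ] ℝ))) x :=
    (h1.const_mul c₁).add (h2.const_mul c₂)
  unfold pd
  rw [h.fderiv]
  by_cases hj : j = 0
  · subst hj
    simp
  · simp [hj]

lemma pd_zero (j : Fin 3) (x : R3) : pd j (fun _ : R3 => (0 : ℝ)) x = 0 := by
  unfold pd
  simp

/-- Iterating a spatial derivative on the zero function. -/
lemma iterate_pd_zero (j : Fin 3) (n : ℕ) :
    (fun h : ℝ → R3 → ℝ => fun t => pd j (h t))^[n] (fun _ _ => 0) = fun _ _ => 0 := by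
  induction n with
  | zero => rfl
  | succ n ih =>
    rw [Function.iterate_succ_apply', ih]
    funext t x
    exact pd_zero j x

/-- Iterating `∂_j` with `j ≠ 0` on a function of the first coordinate only. -/
lemma iterate_pd_ne (j : Fin 3) (hj : j ≠ 0) (A₁ A₂ H₁ H₂ : ℝ → ℝ)
    (hH₁ : Differentiable ℝ H₁) (hH₂ : Differentiable ℝ H₂) (n : ℕ) :
    (fun h : ℝ → R3 → ℝ => fun t => pd j (h t))^[n]
        (fun s y => A₁ s * H₁ (y 0) + A₂ s * H₂ (y 0)) =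
      if n = 0 then (fun s y => A₁ s * H₁ (y 0) + A₂ s * H₂ (y 0)) else fun _ _ => 0 := by
  cases n with
  | zero => rfl
  | succ n =>
    rw [Function.iterate_succ_apply]
    have : (fun t => pd j ((fun s y => A₁ s * H₁ (y 0) + A₂ s * H₂ (y 0)) t)) =
        fun (_ : ℝ) (_ : R3) => (0 : ℝ) := by
      funext t x
      rw [pd_sep (A₁ t) (A₂ t) H₁ H₂ hH₁ hH₂ j x]
      simp [hj]
    rw [this, iterate_pd_zero]
    simp

/-- Iterating `∂_0` on a function of the first coordinate only. -/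
lemma iterate_pd_zero_coord (A₁ A₂ G₁ G₂ : ℝ → ℝ)
    (hG₁ : ∀ n : ℕ, ContDiff ℝ n G₁) (hG₂ : ∀ n : ℕ, ContDiff ℝ n G₂) (n : ℕ) :
    (fun h : ℝ → R3 → ℝ => fun t => pd 0 (h t))^[n]
        (fun s y => A₁ s * G₁ (y 0) + A₂ s * G₂ (y 0)) =
      fun s y => A₁ s * iteratedDeriv n G₁ (y 0) + A₂ s * iteratedDeriv n G₂ (y 0) := by
  induction n with
  | zero => simp
  | succ n ih =>
    rw [Function.iterate_succ_apply', ih]
    funext t x
    have d1 : Differentiable ℝ (iteratedDeriv n G₁) :=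
      (hG₁ (n + 1)).differentiable_iteratedDeriv n (by exact_mod_cast Nat.lt_succ_self n)
    have d2 : Differentiable ℝ (iteratedDeriv n G₂) :=
      (hG₂ (n + 1)).differentiable_iteratedDeriv n (by exact_mod_cast Nat.lt_succ_self n)
    rw [pd_sep (A₁ t) (A₂ t) _ _ d1 d2 0 x]
    simp [iteratedDeriv_succ]

/-- Iterating the time derivative on a sum of products. -/
lemma iterate_dt (A₁ A₂ : ℝ → ℝ) (c₁ c₂ : R3 → ℝ)
    (hA₁ : ∀ n : ℕ, ContDiff ℝ n A₁) (hA₂ : ∀ n : ℕ, ContDiff ℝ n A₂) (n : ℕ) :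
    (fun h : ℝ → R3 → ℝ => fun t x => deriv (fun s => h s x) t)^[n]
        (fun s y => A₁ s * c₁ y + A₂ s * c₂ y) =
      fun s y => iteratedDeriv n A₁ s * c₁ y + iteratedDeriv n A₂ s * c₂ y := by
  induction n with
  | zero => simp
  | succ n ih =>
    rw [Function.iterate_succ_apply', ih]
    funext t x
    have d1 : Differentiable ℝ (iteratedDeriv n A₁) :=
      (hA₁ (n + 1)).differentiable_iteratedDeriv n (by exact_mod_cast Nat.lt_succ_self n)
    have d2 : Differentiable ℝ (iteratedDeriv n A₂) :=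
      (hA₂ (n + 1)).differentiable_iteratedDeriv n (by exact_mod_cast Nat.lt_succ_self n)
    have h : HasDerivAt (fun s => iteratedDeriv n A₁ s * c₁ x + iteratedDeriv n A₂ s * c₂ x)
        (deriv (iteratedDeriv n A₁) t * c₁ x + deriv (iteratedDeriv n A₂) t * c₂ x) t :=
      ((d1 t).hasDerivAt.mul_const (c₁ x)).add ((d2 t).hasDerivAt.mul_const (c₂ x))
    rw [h.deriv, iteratedDeriv_succ, iteratedDeriv_succ]

lemma iterate_dt_zero (n : ℕ) :
    (fun h : ℝ → R3 → ℝ => fun t x => deriv (fun s => h s x) t)^[n] (fun _ _ => 0) =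
      fun _ _ => 0 := by
  induction n with
  | zero => rfl
  | succ n ih =>
    rw [Function.iterate_succ_apply', ih]
    funext t x
    simp

theorem mixedD_prod_add (A₁ A₂ G₁ G₂ : ℝ → ℝ)
    (hA₁ : ∀ n : ℕ, ContDiff ℝ n A₁) (hA₂ : ∀ n : ℕ, ContDiff ℝ n A₂)
    (hG₁ : ∀ n : ℕ, ContDiff ℝ n G₁) (hG₂ : ∀ n : ℕ, ContDiff ℝ n G₂)
    (a : ℕ) (b : ℕ × ℕ × ℕ) (t : ℝ) (x : R3) :
    mixedD a b (fun s y => A₁ s * G₁ (y 0) + A₂ s * G₂ (y 0)) t x =
      if b.2.1 = 0 ∧ b.2.2 = 0 then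
        iteratedDeriv a A₁ t * iteratedDeriv b.1 G₁ (x 0)
          + iteratedDeriv a A₂ t * iteratedDeriv b.1 G₂ (x 0)
      else 0 := by
  have dG₁ : Differentiable ℝ G₁ := (hG₁ 1).differentiable (by norm_num)
  have dG₂ : Differentiable ℝ G₂ := (hG₂ 1).differentiable (by norm_num)
  unfold mixedD
  rw [iterate_pd_ne 2 (by decide) A₁ A₂ G₁ G₂ dG₁ dG₂ b.2.2]
  by_cases h2 : b.2.2 = 0
  · simp only [h2, if_true]
    rw [iterate_pd_ne 1 (by decide) A₁ A₂ G₁ G₂ dG₁ dG₂ b.2.1]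
    by_cases h1 : b.2.1 = 0
    · simp only [h1, if_true, and_self]
      rw [iterate_pd_zero_coord A₁ A₂ G₁ G₂ hG₁ hG₂ b.1,
        iterate_dt A₁ A₂ (fun y => iteratedDeriv b.1 G₁ (y 0)) (fun y => iteratedDeriv b.1 G₂ (y 0))
          hA₁ hA₂ a]
    · simp only [h1, if_false, false_and]
      rw [iterate_pd_zero, iterate_dt_zero]
  · simp only [h2, if_false, and_false]
    rw [iterate_pd_zero, iterate_pd_zero, iterate_dt_zero]

end Vale.Agent.H43
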