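import Vale.Agent.H30.NS.Build
import Vale.Agent.H30.Fz.H7CRat
import Vale.Agent.H30.Fz.H91CReal
import Vale.Agent.H30.Fz.H43Mix

/-!
TASK FORCE of the P113 development: all mixed derivatives of the force `fN ν N` at rational
points are computable reals, uniformly in `N`, the orders, the component and the point.
-/

namespace Vale.Agent.H43

open Vale.Agent.H30

lemma iteratedDeriv_iteratedDeriv' (a k : ℕ) (f : ℝ → ℝ) :
    iteratedDeriv a (iteratedDeriv k f) = iteratedDeriv (a + k) f := by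
  rw [iteratedDeriv_eq_iterate, iteratedDeriv_eq_iterate, iteratedDeriv_eq_iterate,
    Function.iterate_add_apply]

lemma mixedD_zero (a : ℕ) (b : ℕ × ℕ × ℕ) (t : ℝ) (x : R3) :
    mixedD a b (fun _ _ => 0) t x = 0 := by
  unfold mixedD
  rw [iterate_pd_zero, iterate_pd_zero, iterate_pd_zero, iterate_dt_zero]

lemma mixedD_fN_zero (ν : ℝ) (N a : ℕ) (b : ℕ × ℕ × ℕ) (t : ℝ) (x : R3) :
    mixedD a b (fun s y => fN ν N s y (0 : Fin 3)) t x =
      if b.2.1 = 0 ∧ b.2.2 = 0 then
        (if b.1 = 0 then -((cq N : ℚ) : ℝ) * iteratedDeriv (a + 2) hfun t else 0)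
      else 0 := by
  have hfun_eq : (fun (s : ℝ) (y : R3) => fN ν N s y ((0 : Fin 3))) =
      fun s y => (fun s => -((cq N : ℚ) : ℝ) * iteratedDeriv 2 hfun s) s
          * (fun _ : ℝ => (1 : ℝ)) (y 0)
        + (fun _ : ℝ => (0 : ℝ)) s * (fun _ : ℝ => (0 : ℝ)) (y 0) := by
    funext s y
    simp [fN, fG]
  have e : mixedD a b (fun s y => fN ν N s y ((0 : Fin 3))) t x =
      if b.2.1 = 0 ∧ b.2.2 = 0 then
        iteratedDeriv a (fun s => -((cq N : ℚ) : ℝ) * iteratedDeriv 2 hfun s) t
            * iteratedDeriv b.1 (fun _ : ℝ => (1 : ℝ)) (x 0)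
          + iteratedDeriv a (fun _ : ℝ => (0 : ℝ)) t
            * iteratedDeriv b.1 (fun _ : ℝ => (0 : ℝ)) (x 0)
      else 0 := by
    rw [hfun_eq]
    exact mixedD_prod_add _ _ _ _
      (fun n => contDiff_const.mul (smooth_iteratedDeriv hfun_smooth 2 n))
      (fun _ => contDiff_const) (fun _ => contDiff_const) (fun _ => contDiff_const) a b t x
  rw [e, iteratedDeriv_const_mul_field, iteratedDeriv_iteratedDeriv', iteratedDeriv_const]
  simp

lemma mixedD_fN_one (ν : ℝ) (N a : ℕ) (b : ℕ × ℕ × ℕ) (t : ℝ) (x : R3) :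
    mixedD a b (fun s y => fN ν N s y (1 : Fin 3)) t x = 0 := by
  have hfun_eq : (fun (s : ℝ) (y : R3) => fN ν N s y ((1 : Fin 3))) = fun _ _ => 0 := by
    funext s y
    simp [fN, fG]
  rw [hfun_eq]
  exact mixedD_zero a b t x

lemma mixedD_fN_two (ν : ℝ) (hg : ∀ n : ℕ, ContDiff ℝ n gfun) (N a : ℕ) (b : ℕ × ℕ × ℕ)
    (t : ℝ) (x : R3) :
    mixedD a b (fun s y => fN ν N s y (2 : Fin 3)) t x =
      if b.2.1 = 0 ∧ b.2.2 = 0 then
        iteratedDeriv (a + 2) thfun t * iteratedDeriv b.1 gfun (x 0)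
          - ν * (iteratedDeriv (a + 1) thfun t * iteratedDeriv (b.1 + 2) gfun (x 0))
      else 0 := by
  have hfun_eq : (fun (s : ℝ) (y : R3) => fN ν N s y ((2 : Fin 3))) =
      fun s y => (iteratedDeriv 2 thfun) s * gfun (y 0)
        + (fun s => -ν * deriv thfun s) s * (iteratedDeriv 2 gfun) (y 0) := by
    funext s y
    simp [fN, fG]
    ring
  have e : mixedD a b (fun s y => fN ν N s y ((2 : Fin 3))) t x =
      if b.2.1 = 0 ∧ b.2.2 = 0 then
        iteratedDeriv a (iteratedDeriv 2 thfun) t * iteratedDeriv b.1 gfun (x 0)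
          + iteratedDeriv a (fun s => -ν * deriv thfun s) t
            * iteratedDeriv b.1 (iteratedDeriv 2 gfun) (x 0)
      else 0 := by
    rw [hfun_eq]
    exact mixedD_prod_add _ _ _ _
      (fun n => smooth_iteratedDeriv thfun_smooth 2 n)
      (fun n => contDiff_const.mul (smooth_deriv thfun_smooth n)) hg
      (fun n => smooth_iteratedDeriv hg 2 n) a b t x
  have e1 : iteratedDeriv a (fun s => -ν * deriv thfun s) t
      = -ν * iteratedDeriv (a + 1) thfun t := by
    rw [iteratedDeriv_const_mul_field, ← iteratedDeriv_one, iteratedDeriv_iteratedDeriv']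
  rw [e, e1, iteratedDeriv_iteratedDeriv', iteratedDeriv_iteratedDeriv']
  split_ifs
  · ring
  · rfl

/-- Closed formula for all mixed derivatives of the components of the force. -/
theorem mixedD_fN (ν : ℝ) (hg : ∀ n : ℕ, ContDiff ℝ n gfun) (N a : ℕ) (b : ℕ × ℕ × ℕ)
    (i : Fin 3) (t : ℝ) (x : R3) :
    mixedD a b (fun s y => fN ν N s y i) t x =
      if i = 0 then
        (if b.2.1 = 0 ∧ b.2.2 = 0 then
          (if b.1 = 0 then -((cq N : ℚ) : ℝ) * iteratedDeriv (a + 2) hfun t else 0)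
        else 0)
      else if i = 2 then
        (if b.2.1 = 0 ∧ b.2.2 = 0 then
          iteratedDeriv (a + 2) thfun t * iteratedDeriv b.1 gfun (x 0)
            - ν * (iteratedDeriv (a + 1) thfun t * iteratedDeriv (b.1 + 2) gfun (x 0))
        else 0)
      else 0 := by
  by_cases h0 : i = 0
  · subst h0
    rw [if_pos rfl]
    exact mixedD_fN_zero ν N a b t x
  · by_cases h2 : i = 2
    · subst h2
      rw [if_neg h0, if_pos rfl]
      exact mixedD_fN_two ν hg N a b t x
    · have h1 : i = 1 := by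
        revert h0 h2
        revert i
        decide
      subst h1
      rw [if_neg h0, if_neg h2]
      exact mixedD_fN_one ν N a b t x

/-- Index type of the force program: `(N, a, b, i, t, x)`. -/
abbrev PT : Type := ℕ × ℕ × (ℕ × ℕ × ℕ) × Fin 3 × (ℕ × ℕ × ℕ)
    × ((ℕ × ℕ × ℕ) × (ℕ × ℕ × ℕ) × (ℕ × ℕ × ℕ))

theorem CReal.congr' {α : Type} [Primcodable α] {F G : α → ℝ} (h : CReal G)
    (e : ∀ x, F x = G x) : CReal F := by
  have : F = G := funext e
  rw [this]
  exact h

lemma ite_shape (P0 P2 A B C : Prop) [Decidable P0] [Decidable P2] [Decidable A] [Decidable B]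
    [Decidable C] (u v : ℝ) :
    (if P0 then (if B ∧ C then (if A then u else 0) else 0)
      else if P2 then (if B ∧ C then v else 0) else 0)
    = (if decide P0 = true then
        (if decide B = true then (if decide C = true then (if decide A = true then u else 0)
          else 0) else 0)
      else if decide P2 = true then
        (if decide B = true then (if decide C = true then v else 0) else 0) else 0) := by
  simp only [decide_eq_true_eq]
  split_ifs <;> simp_all

theorem cq_crat : CRat (fun N : ℕ => cq N) := by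
  unfold cq
  exact Vale.Agent.H7.CRat.add
    (Vale.Agent.H7.CRat.div (Vale.Agent.H7.CRat.const 1)
      (Vale.Agent.H7.CRat.add (Vale.Agent.H7.CRat.natCast Computable.id)
        (Vale.Agent.H7.CRat.const 3)))
    (Vale.Agent.H7.CRat.div (Vale.Agent.H7.CRat.const 1)
      (Vale.Agent.H7.CRat.mul
        (Vale.Agent.H7.CRat.mul (Vale.Agent.H7.CRat.const 2)
          (Vale.Agent.H7.CRat.add (Vale.Agent.H7.CRat.natCast Computable.id)
            (Vale.Agent.H7.CRat.const 2)))
        (Vale.Agent.H7.CRat.add (Vale.Agent.H7.CRat.natCast Computable.id)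
          (Vale.Agent.H7.CRat.const 3))))

open Vale.Agent.H91 in
/-- TASK FORCE with the inputs from TASK WDER, TASK GDER and TASK GFACT as hypotheses. -/
theorem force_creal_of
    (hW : ∀ (a b : ℚ), a + b ≤ 4 →
      CReal (fun p : ℕ × (ℕ × ℕ × ℕ) => iteratedDeriv p.1 (Wfun (a : ℝ) (b : ℝ)) (qv p.2)))
    (hG : CReal (fun p : ℕ × (ℕ × ℕ × ℕ) => iteratedDeriv p.1 gfun (qv p.2)))
    (hgs : ∀ n : ℕ, ContDiff ℝ n gfun)
    (ν : ℝ)
    (hν : ∃ φ : ℕ → ℕ × ℕ × ℕ, Computable φ ∧ ∀ k : ℕ, |ν - qv (φ k)| ≤ 1 / ((k : ℝ) + 1)) :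
    CReal (fun p : ℕ × ℕ × (ℕ × ℕ × ℕ) × Fin 3 × (ℕ × ℕ × ℕ)
        × ((ℕ × ℕ × ℕ) × (ℕ × ℕ × ℕ) × (ℕ × ℕ × ℕ)) =>
      mixedD p.2.1 p.2.2.1 (fun s y => fN ν p.1 s y p.2.2.2.1) (qv p.2.2.2.2.1)
        ![qv p.2.2.2.2.2.1, qv p.2.2.2.2.2.2.1, qv p.2.2.2.2.2.2.2]) := by
  -- projections
  have pN : Computable (fun p : PT => p.1) := Computable.fst
  have pa : Computable (fun p : PT => p.2.1) := Computable.fst.comp Computable.snd
  have pb : Computable (fun p : PT => p.2.2.1) :=
    Computable.fst.comp (Computable.snd.comp Computable.snd)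
  have pi : Computable (fun p : PT => p.2.2.2.1) :=
    Computable.fst.comp (Computable.snd.comp (Computable.snd.comp Computable.snd))
  have pt : Computable (fun p : PT => p.2.2.2.2.1) :=
    Computable.fst.comp
      (Computable.snd.comp (Computable.snd.comp (Computable.snd.comp Computable.snd)))
  have px : Computable (fun p : PT => p.2.2.2.2.2.1) :=
    Computable.fst.comp (Computable.snd.comp
      (Computable.snd.comp (Computable.snd.comp (Computable.snd.comp Computable.snd))))
  have pb1 : Computable (fun p : PT => p.2.2.1.1) := Computable.fst.comp pb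
  have pb2 : Computable (fun p : PT => p.2.2.1.2.1) :=
    Computable.fst.comp (Computable.snd.comp pb)
  have pb3 : Computable (fun p : PT => p.2.2.1.2.2) :=
    Computable.snd.comp (Computable.snd.comp pb)
  have padd : ∀ {f : PT → ℕ} (k : ℕ), Computable f → Computable (fun p : PT => f p + k) :=
    fun k hf => Primrec.nat_add.to_comp.comp hf (Computable.const k)
  -- the window functions
  have hH0 : CReal (fun p : ℕ × (ℕ × ℕ × ℕ) => iteratedDeriv p.1 hfun (qv p.2)) := by
    have h := hW 1 1 (by norm_num)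
    simpa [hfun] using h
  have hT0 : CReal (fun p : ℕ × (ℕ × ℕ × ℕ) => iteratedDeriv p.1 thfun (qv p.2)) := by
    have h := hW (-1) 2 (by norm_num)
    simpa [thfun] using h
  have HH : ∀ k : ℕ, CReal (fun p : PT => iteratedDeriv (p.2.1 + k) hfun (qv p.2.2.2.2.1)) :=
    fun k => CReal.comp hH0 (g := fun p : PT => (p.2.1 + k, p.2.2.2.2.1))
      (Computable.pair (padd k pa) pt)
  have TH : ∀ k : ℕ, CReal (fun p : PT => iteratedDeriv (p.2.1 + k) thfun (qv p.2.2.2.2.1)) :=
    fun k => CReal.comp hT0 (g := fun p : PT => (p.2.1 + k, p.2.2.2.2.1))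
      (Computable.pair (padd k pa) pt)
  have GG : ∀ k : ℕ,
      CReal (fun p : PT => iteratedDeriv (p.2.2.1.1 + k) gfun (qv p.2.2.2.2.2.1)) :=
    fun k => CReal.comp hG (g := fun p : PT => (p.2.2.1.1 + k, p.2.2.2.2.2.1))
      (Computable.pair (padd k pb1) px)
  have CQ : CReal (fun p : PT => ((cq p.1 : ℚ) : ℝ)) :=
    CReal.of_rat (Vale.Agent.H7.CRat.comp cq_crat pN)
  have NU : CReal (fun _ : PT => ν) := by
    obtain ⟨φ, hφ, hval⟩ := hν
    exact ⟨fun _ k => φ k, hφ.comp Computable.snd, fun _ k => hval k⟩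
  have Z : CReal (fun _ : PT => (0 : ℝ)) := by
    have h := CReal.of_rat (Vale.Agent.H7.CRat.const (α := PT) 0)
    simpa using h
  have T0 : CReal (fun p : PT =>
      -((cq p.1 : ℚ) : ℝ) * iteratedDeriv (p.2.1 + 2) hfun (qv p.2.2.2.2.1)) :=
    CReal.mul (CReal.neg CQ) (HH 2)
  have T2 : CReal (fun p : PT =>
      iteratedDeriv (p.2.1 + 2) thfun (qv p.2.2.2.2.1)
          * iteratedDeriv (p.2.2.1.1 + 0) gfun (qv p.2.2.2.2.2.1)
        - ν * (iteratedDeriv (p.2.1 + 1) thfun (qv p.2.2.2.2.1)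
          * iteratedDeriv (p.2.2.1.1 + 2) gfun (qv p.2.2.2.2.2.1))) :=
    CReal.sub (CReal.mul (TH 2) (GG 0)) (CReal.mul NU (CReal.mul (TH 1) (GG 2)))
  -- conditions
  have ci0 : Computable (fun p : PT => decide (p.2.2.2.1 = (0 : Fin 3))) :=
    Primrec.eq.decide.to_comp.comp pi (Computable.const 0)
  have ci2 : Computable (fun p : PT => decide (p.2.2.2.1 = (2 : Fin 3))) :=
    Primrec.eq.decide.to_comp.comp pi (Computable.const 2)
  have cb1 : Computable (fun p : PT => decide (p.2.2.1.1 = 0)) :=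
    Primrec.eq.decide.to_comp.comp pb1 (Computable.const 0)
  have cb2 : Computable (fun p : PT => decide (p.2.2.1.2.1 = 0)) :=
    Primrec.eq.decide.to_comp.comp pb2 (Computable.const 0)
  have cb3 : Computable (fun p : PT => decide (p.2.2.1.2.2 = 0)) :=
    Primrec.eq.decide.to_comp.comp pb3 (Computable.const 0)
  have key := CReal.ite ci0
    (CReal.ite cb2 (CReal.ite cb3 (CReal.ite cb1 T0 Z) Z) Z)
    (CReal.ite ci2 (CReal.ite cb2 (CReal.ite cb3 T2 Z) Z) Z)
  refine CReal.congr' key (fun p => ?_)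
  rw [mixedD_fN ν hgs]
  simp only [Matrix.cons_val_zero, add_zero]
  exact ite_shape _ _ _ _ _ _ _

end Vale.Agent.H43
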