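import Vale.Agent.H30.NS.Build
import Vale.Agent.H30.Fz.H7CRat
import Vale.Agent.H30.Fz.H91CReal
import Vale.Agent.H30.Fz.H48ExpApprox

/-!
All derivatives of the window function at rational points are computable reals
(TASK WDER of the P113 development).
-/

namespace Vale.Agent.H45

open Vale.Agent.H30

section
variable {α : Type} [Primcodable α]

theorem CRat.of_eq {r s : α → ℚ} (hr : CRat r) (h : ∀ x, r x = s x) : CRat s := by
  obtain ⟨R, hR, hRr⟩ := hr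
  exact ⟨R, hR, fun x => (hRr x).trans (h x)⟩

theorem CReal.of_eq {F G : α → ℝ} (hF : CReal F) (h : ∀ x, F x = G x) : CReal G := by
  obtain ⟨A, hA, hv⟩ := hF
  exact ⟨A, hA, fun x k => by rw [← h x]; exact hv x k⟩

end

theorem dq_crat : CRat (fun p : ℕ × (ℕ × ℕ × ℕ) => dq p.1 (ratOf p.2)) := by
  have hy : CRat (fun p : ℕ × (ℕ × ℕ × ℕ) => ratOf p.2) :=
    Vale.Agent.H7.CRat.comp Vale.Agent.H7.CRat.ratOf Computable.snd
  have h1 : CRat (fun _ : ℕ × (ℕ × ℕ × ℕ) => (1 : ℚ)) := Vale.Agent.H7.CRat.const 1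
  have h2 : CRat (fun p : ℕ × (ℕ × ℕ × ℕ) => (ratOf p.2) ^ 2) :=
    Vale.Agent.H7.CRat.pow hy (Computable.const 2)
  -- the step functions
  have hs1 : CRat (fun p : (ℕ × (ℕ × ℕ × ℕ)) × ℕ × (ℕ × ℕ × ℕ) × (ℕ × ℕ × ℕ) =>
      ratOf p.2.2.2) :=
    Vale.Agent.H7.CRat.comp Vale.Agent.H7.CRat.ratOf
      (Computable.snd.comp (Computable.snd.comp Computable.snd))
  have hu : CRat (fun p : (ℕ × (ℕ × ℕ × ℕ)) × ℕ × (ℕ × ℕ × ℕ) × (ℕ × ℕ × ℕ) =>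
      ratOf p.2.2.1) :=
    Vale.Agent.H7.CRat.comp Vale.Agent.H7.CRat.ratOf
      (Computable.fst.comp (Computable.snd.comp Computable.snd))
  have hyy : CRat (fun p : (ℕ × (ℕ × ℕ × ℕ)) × ℕ × (ℕ × ℕ × ℕ) × (ℕ × ℕ × ℕ) =>
      ratOf p.1.2) :=
    Vale.Agent.H7.CRat.comp Vale.Agent.H7.CRat.ratOf (Computable.snd.comp Computable.fst)
  have hk : CRat (fun p : (ℕ × (ℕ × ℕ × ℕ)) × ℕ × (ℕ × ℕ × ℕ) × (ℕ × ℕ × ℕ) =>
      ((p.2.1 : ℕ) : ℚ)) :=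
    Vale.Agent.H7.CRat.natCast (Computable.fst.comp Computable.snd)
  have hy2 := Vale.Agent.H7.CRat.pow hyy
    (Computable.const (α := (ℕ × (ℕ × ℕ × ℕ)) × ℕ × (ℕ × ℕ × ℕ) × (ℕ × ℕ × ℕ)) 2)
  have hk1 := Vale.Agent.H7.CRat.add hk
    (Vale.Agent.H7.CRat.const (α := (ℕ × (ℕ × ℕ × ℕ)) × ℕ × (ℕ × ℕ × ℕ) × (ℕ × ℕ × ℕ)) 1)
  have hc2 := Vale.Agent.H7.CRat.const
    (α := (ℕ × (ℕ × ℕ × ℕ)) × ℕ × (ℕ × ℕ × ℕ) × (ℕ × ℕ × ℕ)) 2
  have hs2 : CRat (fun p : (ℕ × (ℕ × ℕ × ℕ)) × ℕ × (ℕ × ℕ × ℕ) × (ℕ × ℕ × ℕ) =>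
      ((ratOf p.1.2) ^ 2 - 2 * (((p.2.1 : ℕ) : ℚ) + 1) * ratOf p.1.2) * ratOf p.2.2.2
        - (((p.2.1 : ℕ) : ℚ) + 1) * ((p.2.1 : ℕ) : ℚ) * (ratOf p.1.2) ^ 2 * ratOf p.2.2.1) :=
    Vale.Agent.H7.CRat.sub
      (Vale.Agent.H7.CRat.mul
        (Vale.Agent.H7.CRat.sub hy2
          (Vale.Agent.H7.CRat.mul (Vale.Agent.H7.CRat.mul hc2 hk1) hyy)) hs1)
      (Vale.Agent.H7.CRat.mul
        (Vale.Agent.H7.CRat.mul (Vale.Agent.H7.CRat.mul hk1 hk) hy2) hu)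
  have key := Vale.Agent.H7.CRat.rec2 (α := ℕ × (ℕ × ℕ × ℕ))
    (i₁ := fun _ => (1 : ℚ)) (i₂ := fun p => (ratOf p.2) ^ 2) h1 h2
    (s₁ := fun _ _ _ v => v)
    (s₂ := fun p k u v => ((ratOf p.2) ^ 2 - 2 * ((k : ℚ) + 1) * ratOf p.2) * v
        - ((k : ℚ) + 1) * (k : ℚ) * (ratOf p.2) ^ 2 * u)
    hs1 hs2 (n := fun p => p.1) Computable.fst
  exact key

theorem dq_crat_comp {α : Type} [Primcodable α] {n : α → ℕ} (hn : Computable n) {r : α → ℚ}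
    (hr : CRat r) : CRat (fun x => dq (n x) (r x)) := by
  obtain ⟨R, hR, hRr⟩ := hr
  have h := Vale.Agent.H7.CRat.comp dq_crat (hn.pair hR)
  exact CRat.of_eq h (fun x => by simp only [hRr])

theorem choose_cpt {α : Type} [Primcodable α] {n k : α → ℕ} (hn : Computable n)
    (hk : Computable k) : Computable (fun x => (n x).choose (k x)) := by
  have h : Computable (fun x => bif decide (k x ≤ n x) then
      (n x).factorial / ((k x).factorial * (n x - k x).factorial) else 0) := by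
    fun_prop
  refine h.of_eq fun x => ?_
  by_cases hle : k x ≤ n x
  · simp only [hle, decide_true, cond_true]
    exact (Nat.choose_eq_factorial_div_factorial hle).symm
  · simp only [hle, decide_false, cond_false]
    exact (Nat.choose_eq_zero_of_lt (not_le.1 hle)).symm

theorem wq_crat (a b : ℚ) : CRat (fun p : ℕ × (ℕ × ℕ × ℕ) => wq p.1 a b (ratOf p.2)) := by
  have hs : CRat (fun p : (ℕ × (ℕ × ℕ × ℕ)) × ℕ => ratOf p.1.2) :=
    Vale.Agent.H7.CRat.comp Vale.Agent.H7.CRat.ratOf (Computable.snd.comp Computable.fst)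
  have hj : Computable (fun p : (ℕ × (ℕ × ℕ × ℕ)) × ℕ => p.1.1) :=
    Computable.fst.comp Computable.fst
  have hi : Computable (fun p : (ℕ × (ℕ × ℕ × ℕ)) × ℕ => p.2) := Computable.snd
  have hji : Computable (fun p : (ℕ × (ℕ × ℕ × ℕ)) × ℕ => p.1.1 - p.2) :=
    (Primrec.nat_sub.to_comp).comp hj hi
  have hch : CRat (fun p : (ℕ × (ℕ × ℕ × ℕ)) × ℕ => ((p.1.1.choose p.2 : ℕ) : ℚ)) :=
    Vale.Agent.H7.CRat.natCast (choose_cpt hj hi)
  have hA : CRat (fun p : (ℕ × (ℕ × ℕ × ℕ)) × ℕ => dq p.2 (a + ratOf p.1.2)⁻¹) :=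
    dq_crat_comp hi (Vale.Agent.H7.CRat.inv
      (Vale.Agent.H7.CRat.add (Vale.Agent.H7.CRat.const a) hs))
  have hB : CRat (fun p : (ℕ × (ℕ × ℕ × ℕ)) × ℕ => dq (p.1.1 - p.2) (b - ratOf p.1.2)⁻¹) :=
    dq_crat_comp hji (Vale.Agent.H7.CRat.inv
      (Vale.Agent.H7.CRat.sub (Vale.Agent.H7.CRat.const b) hs))
  have hsgn : CRat (fun p : (ℕ × (ℕ × ℕ × ℕ)) × ℕ => (-1 : ℚ) ^ (p.1.1 - p.2)) :=
    Vale.Agent.H7.CRat.pow (Vale.Agent.H7.CRat.const (-1)) hji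
  have hterm : CRat (fun p : (ℕ × (ℕ × ℕ × ℕ)) × ℕ =>
      ((p.1.1.choose p.2 : ℕ) : ℚ) * dq p.2 (a + ratOf p.1.2)⁻¹
        * ((-1 : ℚ) ^ (p.1.1 - p.2) * dq (p.1.1 - p.2) (b - ratOf p.1.2)⁻¹)) :=
    Vale.Agent.H7.CRat.mul (Vale.Agent.H7.CRat.mul hch hA) (Vale.Agent.H7.CRat.mul hsgn hB)
  have key := Vale.Agent.H7.CRat.sum (α := ℕ × (ℕ × ℕ × ℕ))
    (r := fun x i => ((x.1.choose i : ℕ) : ℚ) * dq i (a + ratOf x.2)⁻¹
        * ((-1 : ℚ) ^ (x.1 - i) * dq (x.1 - i) (b - ratOf x.2)⁻¹))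
    hterm (n := fun x => x.1 + 1) (Computable.succ.comp Computable.fst)
  exact key

theorem exponent_le_one (a b s : ℚ) (hab : a + b ≤ 4) :
    (if -a < s ∧ s < b then 2 - (a + s)⁻¹ - (b - s)⁻¹ else 0) ≤ (1 : ℚ) := by
  split_ifs with h
  · obtain ⟨h1, h2⟩ := h
    have hu : 0 < a + s := by linarith
    have hv : 0 < b - s := by linarith
    have huv : (a + s) + (b - s) ≤ 4 := by linarith
    have key : 1 ≤ (a + s)⁻¹ + (b - s)⁻¹ := by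
      rw [inv_add_inv hu.ne' hv.ne', le_div_iff₀ (mul_pos hu hv)]
      nlinarith [sq_nonneg ((a + s) - (b - s))]
    linarith
  · norm_num

theorem Wfun_deriv_creal (a b : ℚ) (hab : a + b ≤ 4) :
    CReal (fun p : ℕ × (ℕ × ℕ × ℕ) => iteratedDeriv p.1 (Wfun (a : ℝ) (b : ℝ)) (qv p.2)) := by
  have hs : CRat (fun p : ℕ × (ℕ × ℕ × ℕ) => ratOf p.2) :=
    Vale.Agent.H7.CRat.comp Vale.Agent.H7.CRat.ratOf Computable.snd
  have hc1 : Computable (fun p : ℕ × (ℕ × ℕ × ℕ) => decide (-a < ratOf p.2)) :=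
    Vale.Agent.H7.CRat.decide_lt (Vale.Agent.H7.CRat.const (-a)) hs
  have hc2 : Computable (fun p : ℕ × (ℕ × ℕ × ℕ) => decide (ratOf p.2 < b)) :=
    Vale.Agent.H7.CRat.decide_lt hs (Vale.Agent.H7.CRat.const b)
  have hc : Computable (fun p : ℕ × (ℕ × ℕ × ℕ) =>
      (decide (-a < ratOf p.2) && decide (ratOf p.2 < b))) :=
    (Primrec.and.to_comp).comp hc1 hc2
  have hE0 : CRat (fun p : ℕ × (ℕ × ℕ × ℕ) =>
      2 - (a + ratOf p.2)⁻¹ - (b - ratOf p.2)⁻¹) :=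
    Vale.Agent.H7.CRat.sub
      (Vale.Agent.H7.CRat.sub (Vale.Agent.H7.CRat.const 2)
        (Vale.Agent.H7.CRat.inv (Vale.Agent.H7.CRat.add (Vale.Agent.H7.CRat.const a) hs)))
      (Vale.Agent.H7.CRat.inv (Vale.Agent.H7.CRat.sub (Vale.Agent.H7.CRat.const b) hs))
  have hE : CRat (fun p : ℕ × (ℕ × ℕ × ℕ) =>
      if (decide (-a < ratOf p.2) && decide (ratOf p.2 < b)) = true then
        2 - (a + ratOf p.2)⁻¹ - (b - ratOf p.2)⁻¹ else 0) :=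
    Vale.Agent.H7.CRat.ite hc hE0 (Vale.Agent.H7.CRat.const 0)
  have hEle : ∀ p : ℕ × (ℕ × ℕ × ℕ),
      (if (decide (-a < ratOf p.2) && decide (ratOf p.2 < b)) = true then
        2 - (a + ratOf p.2)⁻¹ - (b - ratOf p.2)⁻¹ else 0) ≤ (1 : ℚ) := by
    intro p
    have := exponent_le_one a b (ratOf p.2) hab
    simpa only [Bool.and_eq_true, decide_eq_true_eq] using this
  have hexp := Vale.Agent.H91.CReal.exp_of Vale.Agent.H48.exp_approx hE hEle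
  have hw := Vale.Agent.H91.CReal.of_rat (wq_crat a b)
  have hprod := Vale.Agent.H91.CReal.mul hw hexp
  have hzero : CReal (fun _ : ℕ × (ℕ × ℕ × ℕ) => ((0 : ℚ) : ℝ)) :=
    Vale.Agent.H91.CReal.of_rat (Vale.Agent.H7.CRat.const 0)
  have hfin := Vale.Agent.H91.CReal.ite hc hprod hzero
  refine CReal.of_eq hfin (fun p => ?_)
  rw [qv_eq_ratOf, iteratedDeriv_Wfun_rat]
  by_cases h : -a < ratOf p.2 ∧ ratOf p.2 < b
  · have hb : (decide (-a < ratOf p.2) && decide (ratOf p.2 < b)) = true := by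
      simpa only [Bool.and_eq_true, decide_eq_true_eq] using h
    rw [if_pos hb, if_pos hb, if_pos h]
  · have hb : ¬ ((decide (-a < ratOf p.2) && decide (ratOf p.2 < b)) = true) := by
      simpa only [Bool.and_eq_true, decide_eq_true_eq] using h
    rw [if_neg hb, if_neg h]
    norm_num

end Vale.Agent.H45
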