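import Vale.Agent.H30.NS.Core

/-!
Closure properties of computable rational-valued functions (`CRat` of the P113 development),
with arithmetic on triples of naturals a, b, d read as the rational (a - b) / (d + 1).
-/

namespace Vale.Agent.H48

open Vale.Agent.H30

attribute [fun_prop] Computable

section rules
variable {α β σ : Type} [Primcodable α] [Primcodable β] [Primcodable σ]

@[fun_prop] theorem cpt_id : Computable (fun x : α => x) := Computable.id

@[fun_prop] theorem cpt_const (c : σ) : Computable (fun _ : α => c) := Computable.const c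

@[fun_prop] theorem cpt_comp {f : β → σ} {g : α → β} (hf : Computable f) (hg : Computable g) :
    Computable (fun x => f (g x)) := hf.comp hg

@[fun_prop] theorem cpt_pair {f : α → β} {g : α → σ} (hf : Computable f) (hg : Computable g) :
    Computable (fun x => (f x, g x)) := hf.pair hg

@[fun_prop] theorem cpt_fst {f : α → β × σ} (hf : Computable f) :
    Computable (fun x => (f x).1) := Computable.fst.comp hf

@[fun_prop] theorem cpt_snd {f : α → β × σ} (hf : Computable f) :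
    Computable (fun x => (f x).2) := Computable.snd.comp hf

@[fun_prop] theorem cpt_add {f g : α → ℕ} (hf : Computable f) (hg : Computable g) :
    Computable (fun x => f x + g x) := (Primrec.nat_add.to_comp).comp hf hg

@[fun_prop] theorem cpt_mul {f g : α → ℕ} (hf : Computable f) (hg : Computable g) :
    Computable (fun x => f x * g x) := (Primrec.nat_mul.to_comp).comp hf hg

@[fun_prop] theorem cpt_sub {f g : α → ℕ} (hf : Computable f) (hg : Computable g) :
    Computable (fun x => f x - g x) := (Primrec.nat_sub.to_comp).comp hf hg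

@[fun_prop] theorem cpt_div {f g : α → ℕ} (hf : Computable f) (hg : Computable g) :
    Computable (fun x => f x / g x) := (Primrec.nat_div.to_comp).comp hf hg

@[fun_prop] theorem cpt_mod {f g : α → ℕ} (hf : Computable f) (hg : Computable g) :
    Computable (fun x => f x % g x) := (Primrec.nat_mod.to_comp).comp hf hg

@[fun_prop] theorem cpt_le {f g : α → ℕ} (hf : Computable f) (hg : Computable g) :
    Computable (fun x => decide (f x ≤ g x)) :=
  (Primrec.nat_le.decide.to_comp).comp hf hg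

@[fun_prop] theorem cpt_lt {f g : α → ℕ} (hf : Computable f) (hg : Computable g) :
    Computable (fun x => decide (f x < g x)) :=
  (Primrec.nat_lt.decide.to_comp).comp hf hg

@[fun_prop] theorem cpt_cond {c : α → Bool} {f g : α → σ} (hc : Computable c)
    (hf : Computable f) (hg : Computable g) :
    Computable (fun x => cond (c x) (f x) (g x)) := Computable.cond hc hf hg

theorem cpt_ite {c : α → Prop} [DecidablePred c] {f g : α → σ}
    (hc : Computable (fun x => decide (c x))) (hf : Computable f) (hg : Computable g) :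
    Computable (fun x => if c x then f x else g x) :=
  (Computable.cond hc hf hg).of_eq fun x => by by_cases h : c x <;> simp [h]

theorem cpt_bite {c : α → Bool} {f g : α → σ}
    (hc : Computable c) (hf : Computable f) (hg : Computable g) :
    Computable (fun x => if c x then f x else g x) :=
  (Computable.cond hc hf hg).of_eq fun x => by cases c x <;> simp

/-- recursion over a computable natural number -/
theorem cpt_rec {n : α → ℕ} {g : α → σ} {h : α → ℕ → σ → σ} (hn : Computable n)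
    (hg : Computable g) (hh : Computable (fun p : α × ℕ × σ => h p.1 p.2.1 p.2.2)) :
    Computable (fun x => Nat.rec (motive := fun _ => σ) (g x) (fun k st => h x k st) (n x)) :=
  Computable.nat_rec hn hg (h := fun x p => h x p.1 p.2) hh

end rules

/-! ### Arithmetic on triples -/

/-- sum of two triples -/
def tadd (p q : ℕ × ℕ × ℕ) : ℕ × ℕ × ℕ :=
  (p.1 * (q.2.2 + 1) + q.1 * (p.2.2 + 1), p.2.1 * (q.2.2 + 1) + q.2.1 * (p.2.2 + 1),
    (p.2.2 + 1) * (q.2.2 + 1) - 1)

/-- product of two triples -/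
def tmul (p q : ℕ × ℕ × ℕ) : ℕ × ℕ × ℕ :=
  (p.1 * q.1 + p.2.1 * q.2.1, p.1 * q.2.1 + p.2.1 * q.1, (p.2.2 + 1) * (q.2.2 + 1) - 1)

/-- negative of a triple -/
def tneg (p : ℕ × ℕ × ℕ) : ℕ × ℕ × ℕ := (p.2.1, p.1, p.2.2)

/-- inverse of a triple -/
def tinv (p : ℕ × ℕ × ℕ) : ℕ × ℕ × ℕ :=
  if p.2.1 < p.1 then (p.2.2 + 1, 0, p.1 - p.2.1 - 1)
  else if p.1 < p.2.1 then (0, p.2.2 + 1, p.2.1 - p.1 - 1) else (0, 0, 0)

theorem cast_den (d e : ℕ) :
    (((d + 1) * (e + 1) - 1 : ℕ) : ℚ) + 1 = ((d : ℚ) + 1) * ((e : ℚ) + 1) := by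
  have h : 1 ≤ (d + 1) * (e + 1) := Nat.one_le_iff_ne_zero.2 (by positivity)
  push_cast [Nat.cast_sub h]
  ring

theorem ratOf_tadd (p q : ℕ × ℕ × ℕ) : ratOf (tadd p q) = ratOf p + ratOf q := by
  simp only [ratOf, tadd]
  rw [cast_den]
  push_cast
  field_simp
  ring

theorem ratOf_tmul (p q : ℕ × ℕ × ℕ) : ratOf (tmul p q) = ratOf p * ratOf q := by
  simp only [ratOf, tmul]
  rw [cast_den]
  push_cast
  field_simp
  ring

theorem ratOf_tneg (p : ℕ × ℕ × ℕ) : ratOf (tneg p) = - ratOf p := by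
  simp only [ratOf, tneg]
  ring

theorem ratOf_tinv (p : ℕ × ℕ × ℕ) : ratOf (tinv p) = (ratOf p)⁻¹ := by
  unfold tinv
  split_ifs with h1 h2
  · simp only [ratOf]
    have h : ((p.1 - p.2.1 - 1 : ℕ) : ℚ) + 1 = (p.1 : ℚ) - (p.2.1 : ℚ) := by
      have e : p.1 - p.2.1 - 1 + 1 = p.1 - p.2.1 := by omega
      have h' : p.2.1 ≤ p.1 := by omega
      rw [← Nat.cast_sub h', ← e]
      push_cast
      ring
    rw [h, inv_div]
    push_cast
    ring
  · simp only [ratOf]
    have h : ((p.2.1 - p.1 - 1 : ℕ) : ℚ) + 1 = (p.2.1 : ℚ) - (p.1 : ℚ) := by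
      have e : p.2.1 - p.1 - 1 + 1 = p.2.1 - p.1 := by omega
      have h' : p.1 ≤ p.2.1 := by omega
      rw [← Nat.cast_sub h', ← e]
      push_cast
      ring
    rw [h, inv_div, ← neg_sub (p.2.1 : ℚ) (p.1 : ℚ), div_neg]
    push_cast
    ring
  · have h : p.1 = p.2.1 := by omega
    simp [ratOf, h]

section triples
variable {α : Type} [Primcodable α]

@[fun_prop] theorem cpt_tadd {f g : α → ℕ × ℕ × ℕ} (hf : Computable f) (hg : Computable g) :
    Computable (fun x => tadd (f x) (g x)) := by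
  unfold tadd
  fun_prop

@[fun_prop] theorem cpt_tmul {f g : α → ℕ × ℕ × ℕ} (hf : Computable f) (hg : Computable g) :
    Computable (fun x => tmul (f x) (g x)) := by
  unfold tmul
  fun_prop

@[fun_prop] theorem cpt_tneg {f : α → ℕ × ℕ × ℕ} (hf : Computable f) :
    Computable (fun x => tneg (f x)) := by
  unfold tneg
  fun_prop

@[fun_prop] theorem cpt_tinv {f : α → ℕ × ℕ × ℕ} (hf : Computable f) :
    Computable (fun x => tinv (f x)) := by
  unfold tinv
  refine cpt_ite (by fun_prop) (by fun_prop) (cpt_ite (by fun_prop) (by fun_prop) (by fun_prop))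

end triples

/-! ### Closure properties of `CRat` -/

section
variable {α β : Type} [Primcodable α] [Primcodable β]

theorem CRat.const (q : ℚ) : CRat (fun _ : α => q) := by
  refine ⟨fun _ => (q.num.toNat, (-q.num).toNat, q.den - 1), Computable.const _, fun _ => ?_⟩
  simp only [Vale.Agent.H30.ratOf]
  have h1 : ((q.num.toNat : ℚ) - ((-q.num).toNat : ℚ)) = (q.num : ℚ) := by
    have := Int.toNat_sub_toNat_neg q.num
    exact_mod_cast congrArg (fun z : ℤ => (z : ℚ)) this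
  have h2 : ((q.den - 1 : ℕ) : ℚ) + 1 = (q.den : ℚ) := by
    have := q.den_pos
    push_cast [Nat.cast_sub (show 1 ≤ q.den by omega)]
    ring
  rw [h1, h2]
  exact Rat.num_div_den q

theorem CRat.ratOf : CRat (fun q : ℕ × ℕ × ℕ => Vale.Agent.H30.ratOf q) :=
  ⟨fun q => q, Computable.id, fun _ => rfl⟩

theorem CRat.natCast {n : α → ℕ} (hn : Computable n) : CRat (fun x => (n x : ℚ)) :=
  ⟨fun x => (n x, 0, 0), by fun_prop, fun x => by simp [Vale.Agent.H30.ratOf]⟩

theorem CRat.comp {r : β → ℚ} (hr : CRat r) {g : α → β} (hg : Computable g) :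
    CRat (fun x => r (g x)) := by
  obtain ⟨R, hR, hRv⟩ := hr
  exact ⟨fun x => R (g x), hR.comp hg, fun x => hRv (g x)⟩

theorem CRat.add {r s : α → ℚ} (hr : CRat r) (hs : CRat s) : CRat (fun x => r x + s x) := by
  obtain ⟨R, hR, hRv⟩ := hr
  obtain ⟨S, hS, hSv⟩ := hs
  exact ⟨fun x => tadd (R x) (S x), by fun_prop, fun x => by rw [ratOf_tadd, hRv, hSv]⟩

theorem CRat.neg {r : α → ℚ} (hr : CRat r) : CRat (fun x => - r x) := by
  obtain ⟨R, hR, hRv⟩ := hr
  exact ⟨fun x => tneg (R x), by fun_prop, fun x => by rw [ratOf_tneg, hRv]⟩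

theorem CRat.sub {r s : α → ℚ} (hr : CRat r) (hs : CRat s) : CRat (fun x => r x - s x) := by
  have := CRat.add hr (CRat.neg hs)
  simpa [sub_eq_add_neg] using this

theorem CRat.mul {r s : α → ℚ} (hr : CRat r) (hs : CRat s) : CRat (fun x => r x * s x) := by
  obtain ⟨R, hR, hRv⟩ := hr
  obtain ⟨S, hS, hSv⟩ := hs
  exact ⟨fun x => tmul (R x) (S x), by fun_prop, fun x => by rw [ratOf_tmul, hRv, hSv]⟩

theorem CRat.inv {r : α → ℚ} (hr : CRat r) : CRat (fun x => (r x)⁻¹) := by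
  obtain ⟨R, hR, hRv⟩ := hr
  exact ⟨fun x => tinv (R x), by fun_prop, fun x => by rw [ratOf_tinv, hRv]⟩

theorem CRat.div {r s : α → ℚ} (hr : CRat r) (hs : CRat s) : CRat (fun x => r x / s x) := by
  have := CRat.mul hr (CRat.inv hs)
  simpa [div_eq_mul_inv] using this

theorem CRat.pow {r : α → ℚ} (hr : CRat r) {n : α → ℕ} (hn : Computable n) :
    CRat (fun x => r x ^ n x) := by
  obtain ⟨R, hR, hRv⟩ := hr
  refine ⟨fun x => Nat.rec (motive := fun _ => ℕ × ℕ × ℕ) (1, 0, 0)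
    (fun _ st => tmul st (R x)) (n x), cpt_rec hn (by fun_prop) (by fun_prop), fun x => ?_⟩
  beta_reduce
  generalize n x = m
  induction m with
  | zero => simp [Vale.Agent.H30.ratOf]
  | succ k ih => simp only [ratOf_tmul, ih, hRv, pow_succ]

theorem CRat.ite {c : α → Bool} (hc : Computable c) {r s : α → ℚ} (hr : CRat r) (hs : CRat s) :
    CRat (fun x => if c x then r x else s x) := by
  obtain ⟨R, hR, hRv⟩ := hr
  obtain ⟨S, hS, hSv⟩ := hs
  refine ⟨fun x => if c x then R x else S x, cpt_bite hc hR hS, fun x => ?_⟩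
  cases h : c x <;> simp [h, hRv, hSv]

/-- finite sums -/
theorem CRat.sum {r : α → ℕ → ℚ} (hr : CRat (fun p : α × ℕ => r p.1 p.2)) {n : α → ℕ}
    (hn : Computable n) : CRat (fun x => ∑ i ∈ Finset.range (n x), r x i) := by
  obtain ⟨R, hR, hRv⟩ := hr
  refine ⟨fun x => Nat.rec (motive := fun _ => ℕ × ℕ × ℕ) (0, 0, 0)
    (fun k st => tadd st (R (x, k))) (n x), cpt_rec hn (by fun_prop) (by fun_prop), fun x => ?_⟩
  beta_reduce
  generalize n x = m
  induction m with
  | zero => simp [Vale.Agent.H30.ratOf]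
  | succ k ih => simp only [ratOf_tadd, ih, hRv, Finset.sum_range_succ]

theorem ratOf_le_iff (p q : ℕ × ℕ × ℕ) : Vale.Agent.H30.ratOf p ≤ Vale.Agent.H30.ratOf q ↔
    p.1 * (q.2.2 + 1) + q.2.1 * (p.2.2 + 1) ≤ q.1 * (p.2.2 + 1) + p.2.1 * (q.2.2 + 1) := by
  simp only [Vale.Agent.H30.ratOf]
  rw [div_le_div_iff₀ (by positivity) (by positivity), ← Nat.cast_le (α := ℚ)]
  push_cast
  constructor <;> intro h <;> linarith

theorem ratOf_lt_iff (p q : ℕ × ℕ × ℕ) : Vale.Agent.H30.ratOf p < Vale.Agent.H30.ratOf q ↔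
    p.1 * (q.2.2 + 1) + q.2.1 * (p.2.2 + 1) < q.1 * (p.2.2 + 1) + p.2.1 * (q.2.2 + 1) := by
  simp only [Vale.Agent.H30.ratOf]
  rw [div_lt_div_iff₀ (by positivity) (by positivity), ← Nat.cast_lt (α := ℚ)]
  push_cast
  constructor <;> intro h <;> linarith

theorem floor_ratOf (p : ℕ × ℕ × ℕ) :
    ⌊Vale.Agent.H30.ratOf p⌋₊ = (p.1 - p.2.1) / (p.2.2 + 1) := by
  simp only [Vale.Agent.H30.ratOf]
  rcases le_total p.2.1 p.1 with h | h
  · rw [← Nat.cast_sub h, ← Nat.cast_add_one, Nat.floor_div_eq_div]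
  · have h0 : ((p.1 : ℚ) - (p.2.1 : ℚ)) / ((p.2.2 : ℚ) + 1) ≤ 0 :=
      div_nonpos_of_nonpos_of_nonneg (by simpa using (Nat.cast_le (α := ℚ)).2 h) (by positivity)
    rw [Nat.floor_of_nonpos h0, Nat.sub_eq_zero_of_le h, Nat.zero_div]

theorem fract_ratOf (p : ℕ × ℕ × ℕ) : Int.fract (Vale.Agent.H30.ratOf p) =
    Vale.Agent.H30.ratOf ((p.1 + p.2.1 * p.2.2) % (p.2.2 + 1), 0, p.2.2) := by
  have h1 : Vale.Agent.H30.ratOf p + ((p.2.1 : ℕ) : ℚ)
      = ((p.1 + p.2.1 * p.2.2 : ℕ) : ℚ) / ((p.2.2 + 1 : ℕ) : ℚ) := by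
    simp only [Vale.Agent.H30.ratOf]
    push_cast
    field_simp
    ring
  rw [← Int.fract_add_natCast (Vale.Agent.H30.ratOf p) p.2.1, h1,
    Int.fract_div_natCast_eq_div_natCast_mod]
  simp [Vale.Agent.H30.ratOf]

theorem CRat.decide_le {r s : α → ℚ} (hr : CRat r) (hs : CRat s) :
    Computable (fun x => decide (r x ≤ s x)) := by
  obtain ⟨R, hR, hRv⟩ := hr
  obtain ⟨S, hS, hSv⟩ := hs
  have h : Computable (fun x => decide ((R x).1 * ((S x).2.2 + 1) + (S x).2.1 * ((R x).2.2 + 1)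
      ≤ (S x).1 * ((R x).2.2 + 1) + (R x).2.1 * ((S x).2.2 + 1))) := by fun_prop
  exact h.of_eq fun x => by rw [← hRv, ← hSv, decide_eq_decide, ratOf_le_iff]

theorem CRat.decide_lt {r s : α → ℚ} (hr : CRat r) (hs : CRat s) :
    Computable (fun x => decide (r x < s x)) := by
  obtain ⟨R, hR, hRv⟩ := hr
  obtain ⟨S, hS, hSv⟩ := hs
  have h : Computable (fun x => decide ((R x).1 * ((S x).2.2 + 1) + (S x).2.1 * ((R x).2.2 + 1)
      < (S x).1 * ((R x).2.2 + 1) + (R x).2.1 * ((S x).2.2 + 1))) := by fun_prop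
  exact h.of_eq fun x => by rw [← hRv, ← hSv, decide_eq_decide, ratOf_lt_iff]

theorem CRat.floor {r : α → ℚ} (hr : CRat r) : Computable (fun x => ⌊r x⌋₊) := by
  obtain ⟨R, hR, hRv⟩ := hr
  have h : Computable (fun x => ((R x).1 - (R x).2.1) / ((R x).2.2 + 1)) := by fun_prop
  exact h.of_eq fun x => by rw [← hRv, floor_ratOf]

theorem CRat.fract {r : α → ℚ} (hr : CRat r) : CRat (fun x => Int.fract (r x)) := by
  obtain ⟨R, hR, hRv⟩ := hr
  exact ⟨fun x => (((R x).1 + (R x).2.1 * (R x).2.2) % ((R x).2.2 + 1), 0, (R x).2.2),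
    by fun_prop, fun x => by beta_reduce; rw [← hRv, fract_ratOf]⟩

/-- two-term recursions: the state is a pair of rationals -/
theorem CRat.rec2 {i₁ i₂ : α → ℚ} (h₁ : CRat i₁) (h₂ : CRat i₂) {s₁ s₂ : α → ℕ → ℚ → ℚ → ℚ}
    (hs₁ : CRat (fun p : α × ℕ × (ℕ × ℕ × ℕ) × (ℕ × ℕ × ℕ) =>
      s₁ p.1 p.2.1 (Vale.Agent.H30.ratOf p.2.2.1) (Vale.Agent.H30.ratOf p.2.2.2)))
    (hs₂ : CRat (fun p : α × ℕ × (ℕ × ℕ × ℕ) × (ℕ × ℕ × ℕ) =>
      s₂ p.1 p.2.1 (Vale.Agent.H30.ratOf p.2.2.1) (Vale.Agent.H30.ratOf p.2.2.2)))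
    {n : α → ℕ} (hn : Computable n) :
    CRat (fun x => (Nat.rec (motive := fun _ => ℚ × ℚ) (i₁ x, i₂ x)
      (fun k st => (s₁ x k st.1 st.2, s₂ x k st.1 st.2)) (n x)).1) := by
  obtain ⟨I1, hI1, hI1v⟩ := h₁
  obtain ⟨I2, hI2, hI2v⟩ := h₂
  obtain ⟨S1, hS1, hS1v⟩ := hs₁
  obtain ⟨S2, hS2, hS2v⟩ := hs₂
  have hc : Computable (fun x => Nat.rec (motive := fun _ => (ℕ × ℕ × ℕ) × (ℕ × ℕ × ℕ))
      (I1 x, I2 x) (fun k st => (S1 (x, k, st.1, st.2), S2 (x, k, st.1, st.2))) (n x)) :=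
    cpt_rec hn (by fun_prop) (by fun_prop)
  refine ⟨fun x => (Nat.rec (motive := fun _ => (ℕ × ℕ × ℕ) × (ℕ × ℕ × ℕ)) (I1 x, I2 x)
    (fun k st => (S1 (x, k, st.1, st.2), S2 (x, k, st.1, st.2))) (n x)).1,
    Computable.fst.comp hc, fun x => ?_⟩
  have key : ∀ m : ℕ,
      (Vale.Agent.H30.ratOf (Nat.rec (motive := fun _ => (ℕ × ℕ × ℕ) × (ℕ × ℕ × ℕ)) (I1 x, I2 x)
          (fun k st => (S1 (x, k, st.1, st.2), S2 (x, k, st.1, st.2))) m).1,
        Vale.Agent.H30.ratOf (Nat.rec (motive := fun _ => (ℕ × ℕ × ℕ) × (ℕ × ℕ × ℕ)) (I1 x, I2 x)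
          (fun k st => (S1 (x, k, st.1, st.2), S2 (x, k, st.1, st.2))) m).2)
      = Nat.rec (motive := fun _ => ℚ × ℚ) (i₁ x, i₂ x)
          (fun k st => (s₁ x k st.1 st.2, s₂ x k st.1 st.2)) m := by
    intro m
    induction m with
    | zero => simp [hI1v, hI2v]
    | succ k ih =>
      simp only [hS1v, hS2v]
      rw [← ih]
  exact congrArg Prod.fst (key (n x))

end

end Vale.Agent.H48
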