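import Vale.Agent.H30.Fz.H99DivPeriodic

/-!
Spatial integral identities on the torus used by the energy method.
-/

namespace Vale.Agent.H77
open Vale.Agent.H30 Vale.Agent.H99
open MeasureTheory Set

theorem pd_mul {φ ψ : R3 → ℝ} {x : R3} (hφ : DifferentiableAt ℝ φ x)
    (hψ : DifferentiableAt ℝ ψ x) (j : Fin 3) :
    pd j (fun y => φ y * ψ y) x = pd j φ x * ψ x + φ x * pd j ψ x := by
  unfold pd
  rw [fderiv_fun_mul hφ hψ]
  simp only [add_apply, smul_apply, smul_eq_mul]
  ring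

theorem pd_sub {φ ψ : R3 → ℝ} {x : R3} (hφ : DifferentiableAt ℝ φ x)
    (hψ : DifferentiableAt ℝ ψ x) (j : Fin 3) :
    pd j (fun y => φ y - ψ y) x = pd j φ x - pd j ψ x := by
  unfold pd
  rw [fderiv_fun_sub hφ hψ]
  simp

theorem pd_add {φ ψ : R3 → ℝ} {x : R3} (hφ : DifferentiableAt ℝ φ x)
    (hψ : DifferentiableAt ℝ ψ x) (j : Fin 3) :
    pd j (fun y => φ y + ψ y) x = pd j φ x + pd j ψ x := by
  unfold pd
  rw [fderiv_fun_add hφ hψ]
  simp

theorem pd_const_mul {φ : R3 → ℝ} {x : R3} (hφ : DifferentiableAt ℝ φ x) (c : ℝ) (j : Fin 3) :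
    pd j (fun y => c * φ y) x = c * pd j φ x := by
  unfold pd
  rw [fderiv_const_mul hφ]
  simp

theorem per3_pd {φ : R3 → ℝ} (h : Per3 φ) (j : Fin 3) : Per3 (pd j φ) := by
  intro x k
  unfold pd
  have h1 : (fun y => φ (y + fun i => (k i : ℝ))) = φ := funext fun y => h y k
  have h2 := fderiv_comp_add_right (𝕜 := ℝ) (f := φ) (x := x) (fun i => (k i : ℝ))
  rw [h1] at h2
  rw [h2]

theorem contDiff_pd {φ : R3 → ℝ} (hφ : ContDiff ℝ 2 φ) (j : Fin 3) : ContDiff ℝ 1 (pd j φ) := by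
  have h1 : ContDiff ℝ 1 (fderiv ℝ φ) := hφ.fderiv_right (by norm_num)
  exact h1.clm_apply contDiff_const

theorem continuous_pd {φ : R3 → ℝ} (hφ : ContDiff ℝ 1 φ) (j : Fin 3) : Continuous (pd j φ) := by
  have h1 : Continuous (fderiv ℝ φ) := hφ.continuous_fderiv (by norm_num)
  exact h1.clm_apply continuous_const

theorem integral_advect_zero (v : Fin 3 → R3 → ℝ) (hv : ∀ j, Differentiable ℝ (v j))
    (hvper : ∀ j, Per3 (v j)) (hdiv : ∀ x, ∑ j : Fin 3, pd j (v j) x = 0)
    (φ : R3 → ℝ) (hφ : Differentiable ℝ φ) (hφper : Per3 φ)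
    (hc : Continuous (fun x => ∑ j : Fin 3, v j x * pd j φ x)) :
    ∫ x in Set.Icc (0 : R3) 1, ∑ j : Fin 3, v j x * pd j φ x = 0 := by
  have key : ∀ x, ∑ j : Fin 3, pd j (fun y => v j y * φ y) x = ∑ j : Fin 3, v j x * pd j φ x := by
    intro x
    have h1 : ∀ j, pd j (fun y => v j y * φ y) x = pd j (v j) x * φ x + v j x * pd j φ x :=
      fun j => pd_mul (hv j x) (hφ x) j
    simp only [h1, Finset.sum_add_distrib, ← Finset.sum_mul, hdiv x, zero_mul, zero_add]
  have h2 := integral_div_periodic (fun x j => v j x * φ x)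
    (differentiable_pi.2 fun j => (hv j).mul hφ)
    (by intro x k; funext j; simp only [hvper j x k, hφper x k])
    (by simpa only [key] using hc)
  simpa only [key] using h2

theorem integral_lap_mul_nonpos (φ : R3 → ℝ) (hφ : ContDiff ℝ 2 φ) (hper : Per3 φ) :
    ∫ x in Set.Icc (0 : R3) 1, ∑ j : Fin 3, φ x * pd j (pd j φ) x ≤ 0 := by
  have hφd : Differentiable ℝ φ := hφ.differentiable (by norm_num)
  have hpd : ∀ j, Differentiable ℝ (pd j φ) := fun j => (contDiff_pd hφ j).differentiable (by norm_num)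
  have hφc : Continuous φ := hφ.continuous
  have hpdc : ∀ j, Continuous (pd j φ) := fun j => (hpd j).continuous
  have hpdc2 : ∀ j, Continuous (pd j (pd j φ)) := fun j => continuous_pd (contDiff_pd hφ j) j
  have key : ∀ x, ∑ j : Fin 3, pd j (fun y => φ y * pd j φ y) x
      = ∑ j : Fin 3, (pd j φ x * pd j φ x + φ x * pd j (pd j φ) x) := by
    intro x
    exact Finset.sum_congr rfl fun j _ => pd_mul (hφd x) (hpd j x) j
  have hc : Continuous (fun x => ∑ j : Fin 3, (pd j φ x * pd j φ x + φ x * pd j (pd j φ) x)) :=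
    continuous_finsetSum _ fun j _ => ((hpdc j).mul (hpdc j)).add (hφc.mul (hpdc2 j))
  have h2 := integral_div_periodic (fun x j => φ x * pd j φ x)
    (differentiable_pi.2 fun j => hφd.mul (hpd j))
    (by intro x k; funext j; simp only [per3_pd hper j x k, hper x k])
    (by simpa only [key] using hc)
  simp only [key] at h2
  rw [← h2]
  have hc1 : Continuous (fun x => ∑ j : Fin 3, φ x * pd j (pd j φ) x) :=
    continuous_finsetSum _ fun j _ => hφc.mul (hpdc2 j)
  refine setIntegral_mono_on (hc1.integrableOn_Icc) (hc.integrableOn_Icc) measurableSet_Icc ?_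
  intro x _
  refine Finset.sum_le_sum fun j _ => ?_
  nlinarith [mul_self_nonneg (pd j φ x)]


theorem pd_sum {ι : Type} (s : Finset ι) {f : ι → R3 → ℝ} {x : R3}
    (hf : ∀ i ∈ s, DifferentiableAt ℝ (f i) x) (j : Fin 3) :
    pd j (fun y => ∑ i ∈ s, f i y) x = ∑ i ∈ s, pd j (f i) x := by
  unfold pd
  rw [fderiv_fun_sum hf]
  simp

theorem spatial_energy {ν : ℝ} (hν : 0 ≤ ν) (U V : Fin 3 → R3 → ℝ) (P Q : R3 → ℝ)
    (hU : ∀ i, ContDiff ℝ 2 (U i)) (hV : ∀ i, ContDiff ℝ 2 (V i))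
    (hUper : ∀ i, Per3 (U i)) (hVper : ∀ i, Per3 (V i))
    (hP : Differentiable ℝ P) (hQ : Differentiable ℝ Q) (hPper : Per3 P) (hQper : Per3 Q)
    (hPc : ∀ i, Continuous (pd i P)) (hQc : ∀ i, Continuous (pd i Q))
    (hdivU : ∀ x, ∑ j : Fin 3, pd j (U j) x = 0) (hdivV : ∀ x, ∑ j : Fin 3, pd j (V j) x = 0)
    (C : ℝ) (hC : ∀ i j, ∀ x ∈ Icc (0 : R3) 1, |pd j (U i) x| ≤ C)
    (a : Fin 3 → R3 → ℝ)
    (ha : ∀ i x, a i x =
      (- ∑ j : Fin 3, V j x * pd j (V i) x - pd i Q x + ν * ∑ j : Fin 3, pd j (pd j (V i)) x)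
      - (- ∑ j : Fin 3, U j x * pd j (U i) x - pd i P x
          + ν * ∑ j : Fin 3, pd j (pd j (U i)) x)) :
    ∫ x in Icc (0 : R3) 1, ∑ i : Fin 3, (V i x - U i x) * a i x
      ≤ 3 * C * ∫ x in Icc (0 : R3) 1, ∑ i : Fin 3, (V i x - U i x) ^ 2 := by
  have hUd : ∀ i, Differentiable ℝ (U i) := fun i => (hU i).differentiable (by norm_num)
  have hVd : ∀ i, Differentiable ℝ (V i) := fun i => (hV i).differentiable (by norm_num)
  have hUc : ∀ i, Continuous (U i) := fun i => (hU i).continuous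
  have hVc : ∀ i, Continuous (V i) := fun i => (hV i).continuous
  obtain ⟨W, hWdef⟩ : ∃ W : Fin 3 → R3 → ℝ, W = fun i y => V i y - U i y := ⟨_, rfl⟩
  have hWx : ∀ i x, W i x = V i x - U i x := fun i x => by rw [hWdef]
  have hW : ∀ i, ContDiff ℝ 2 (W i) := fun i => by rw [hWdef]; exact (hV i).sub (hU i)
  have hWper : ∀ i, Per3 (W i) := fun i x k => by
    simp only [hWx, hVper i x k, hUper i x k]
  have hWd : ∀ i, Differentiable ℝ (W i) := fun i => (hW i).differentiable (by norm_num)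
  have hWc : ∀ i, Continuous (W i) := fun i => (hW i).continuous
  have hpdW : ∀ i j x, pd j (W i) x = pd j (V i) x - pd j (U i) x := fun i j x => by
    rw [hWdef]; exact pd_sub (hVd i x) (hUd i x) j
  have hpdWc : ∀ i j, Continuous (pd j (W i)) := fun i j =>
    continuous_pd ((hW i).of_le (by norm_num)) j
  have hpdUc : ∀ i j, Continuous (pd j (U i)) := fun i j =>
    continuous_pd ((hU i).of_le (by norm_num)) j
  have hpdW2 : ∀ i j x, pd j (pd j (W i)) x = pd j (pd j (V i)) x - pd j (pd j (U i)) x := by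
    intro i j x
    have h1 : pd j (W i) = fun y => pd j (V i) y - pd j (U i) y := funext (hpdW i j)
    rw [h1]
    exact pd_sub ((contDiff_pd (hV i) j).differentiable (by norm_num) x)
      ((contDiff_pd (hU i) j).differentiable (by norm_num) x) j
  have hpdW2c : ∀ i j, Continuous (pd j (pd j (W i))) := fun i j =>
    continuous_pd (contDiff_pd (hW i) j) j
  have hdivW : ∀ x, ∑ j : Fin 3, pd j (W j) x = 0 := by
    intro x
    simp only [hpdW, Finset.sum_sub_distrib, hdivU x, hdivV x, sub_zero]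
  -- pressure difference
  obtain ⟨R, hRdef⟩ : ∃ R : R3 → ℝ, R = fun y => Q y - P y := ⟨_, rfl⟩
  have hRd : Differentiable ℝ R := by rw [hRdef]; exact hQ.sub hP
  have hRper : Per3 R := fun x k => by simp only [hRdef, hQper x k, hPper x k]
  have hpdR : ∀ j x, pd j R x = pd j Q x - pd j P x := fun j x => by
    rw [hRdef]; exact pd_sub (hQ x) (hP x) j
  have hpdRc : ∀ j, Continuous (pd j R) := fun j => by
    have h1 : pd j R = fun x => pd j Q x - pd j P x := funext (hpdR j)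
    rw [h1]; exact (hQc j).sub (hPc j)
  -- half the squared norm
  obtain ⟨φ, hφdef⟩ : ∃ φ : R3 → ℝ, φ = fun y => (1 / 2 : ℝ) * ∑ i : Fin 3, W i y * W i y :=
    ⟨_, rfl⟩
  have hWW : ∀ i, Differentiable ℝ (fun y => W i y * W i y) := fun i => (hWd i).mul (hWd i)
  have hφd : Differentiable ℝ φ := by
    rw [hφdef]
    exact (Differentiable.fun_sum fun i _ => hWW i).const_mul _
  have hφper : Per3 φ := fun x k => by simp only [hφdef, hWper _ x k]
  have hpdφ : ∀ j x, pd j φ x = ∑ i : Fin 3, W i x * pd j (W i) x := by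
    intro j x
    rw [hφdef]
    rw [pd_const_mul (DifferentiableAt.fun_sum fun i _ => hWW i x)]
    rw [pd_sum _ (fun i _ => hWW i x)]
    rw [Finset.mul_sum]
    refine Finset.sum_congr rfl fun i _ => ?_
    rw [pd_mul (hWd i x) (hWd i x)]
    ring
  have hpdφc : ∀ j, Continuous (pd j φ) := fun j => by
    have h1 : pd j φ = fun x => ∑ i : Fin 3, W i x * pd j (W i) x := funext (hpdφ j)
    rw [h1]; exact continuous_finsetSum _ fun i _ => (hWc i).mul (hpdWc i j)
  -- the four pieces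
  have hAc : Continuous (fun x => ∑ j : Fin 3, V j x * pd j φ x) :=
    continuous_finsetSum _ fun j _ => (hVc j).mul (hpdφc j)
  have hBc : Continuous (fun x => ∑ i : Fin 3, ∑ j : Fin 3, W i x * W j x * pd j (U i) x) :=
    continuous_finsetSum _ fun i _ => continuous_finsetSum _ fun j _ =>
      ((hWc i).mul (hWc j)).mul (hpdUc i j)
  have hCc : Continuous (fun x => ∑ j : Fin 3, W j x * pd j R x) :=
    continuous_finsetSum _ fun j _ => (hWc j).mul (hpdRc j)
  have hDc : ∀ i, Continuous (fun x => ∑ j : Fin 3, W i x * pd j (pd j (W i)) x) := fun i =>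
    continuous_finsetSum _ fun j _ => (hWc i).mul (hpdW2c i j)
  have hEc : Continuous (fun x => ∑ i : Fin 3, (V i x - U i x) ^ 2) :=
    continuous_finsetSum _ fun i _ => ((hVc i).sub (hUc i)).pow 2
  have eA : ∫ x in Icc (0 : R3) 1, ∑ j : Fin 3, V j x * pd j φ x = 0 :=
    integral_advect_zero V hVd hVper hdivV φ hφd hφper hAc
  have eC : ∫ x in Icc (0 : R3) 1, ∑ j : Fin 3, W j x * pd j R x = 0 :=
    integral_advect_zero W hWd hWper hdivW R hRd hRper hCc
  have eD : ∀ i, ∫ x in Icc (0 : R3) 1, ∑ j : Fin 3, W i x * pd j (pd j (W i)) x ≤ 0 :=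
    fun i => integral_lap_mul_nonpos (W i) (hW i) (hWper i)
  have hC0 : 0 ≤ C := le_trans (abs_nonneg _) (hC 0 0 0 ⟨le_refl _, zero_le_one⟩)
  -- pointwise identity
  have key : ∀ x, ∑ i : Fin 3, (V i x - U i x) * a i x
      = (- (∑ j : Fin 3, V j x * pd j φ x) - (∑ j : Fin 3, W j x * pd j R x)
          + ν * ∑ i : Fin 3, ∑ j : Fin 3, W i x * pd j (pd j (W i)) x)
        - ∑ i : Fin 3, ∑ j : Fin 3, W i x * W j x * pd j (U i) x := by
    intro x
    simp only [ha, hpdφ, hpdR, hpdW2, hpdW, hWx, Fin.sum_univ_three]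
    ring
  have hB : ∀ x ∈ Icc (0 : R3) 1, - ∑ i : Fin 3, ∑ j : Fin 3, W i x * W j x * pd j (U i) x
      ≤ 3 * C * ∑ i : Fin 3, (V i x - U i x) ^ 2 := by
    intro x hx
    have h1 : ∀ i j, - (W i x * W j x * pd j (U i) x)
        ≤ C * ((W i x) ^ 2 + (W j x) ^ 2) / 2 := by
      intro i j
      have h2 := hC i j x hx
      have h3 : |W i x * W j x| ≤ ((W i x) ^ 2 + (W j x) ^ 2) / 2 := by
        rw [abs_le]; constructor <;> nlinarith [sq_nonneg (W i x - W j x), sq_nonneg (W i x + W j x)]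
      calc - (W i x * W j x * pd j (U i) x) ≤ |W i x * W j x * pd j (U i) x| := neg_le_abs _
        _ = |W i x * W j x| * |pd j (U i) x| := abs_mul _ _
        _ ≤ (((W i x) ^ 2 + (W j x) ^ 2) / 2) * C :=
            mul_le_mul h3 h2 (abs_nonneg _) (le_trans (abs_nonneg _) h3)
        _ = C * ((W i x) ^ 2 + (W j x) ^ 2) / 2 := by ring
    calc - ∑ i : Fin 3, ∑ j : Fin 3, W i x * W j x * pd j (U i) x
        = ∑ i : Fin 3, ∑ j : Fin 3, - (W i x * W j x * pd j (U i) x) := by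
          simp only [Finset.sum_neg_distrib]
      _ ≤ ∑ i : Fin 3, ∑ j : Fin 3, C * ((W i x) ^ 2 + (W j x) ^ 2) / 2 :=
          Finset.sum_le_sum fun i _ => Finset.sum_le_sum fun j _ => h1 i j
      _ = 3 * C * ∑ i : Fin 3, (V i x - U i x) ^ 2 := by
          simp only [hWx, Fin.sum_univ_three]; ring
  -- integrate
  have iA := hAc.integrableOn_Icc (μ := volume) (a := (0 : R3)) (b := 1)
  have iB := hBc.integrableOn_Icc (μ := volume) (a := (0 : R3)) (b := 1)
  have iC := hCc.integrableOn_Icc (μ := volume) (a := (0 : R3)) (b := 1)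
  have iD := fun i => (hDc i).integrableOn_Icc (μ := volume) (a := (0 : R3)) (b := 1)
  have iE := hEc.integrableOn_Icc (μ := volume) (a := (0 : R3)) (b := 1)
  have iD' : IntegrableOn (fun x => ν * ∑ i : Fin 3, ∑ j : Fin 3, W i x * pd j (pd j (W i)) x)
      (Icc (0 : R3) 1) := (integrable_finsetSum _ fun i _ => iD i).const_mul ν
  have step1 : ∫ x in Icc (0 : R3) 1, ∑ i : Fin 3, (V i x - U i x) * a i x
      ≤ ∫ x in Icc (0 : R3) 1, ((- (∑ j : Fin 3, V j x * pd j φ x) - (∑ j : Fin 3, W j x * pd j R x)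
          + ν * ∑ i : Fin 3, ∑ j : Fin 3, W i x * pd j (pd j (W i)) x)
        + 3 * C * ∑ i : Fin 3, (V i x - U i x) ^ 2) := by
    refine setIntegral_mono_on ?_ ?_ measurableSet_Icc ?_
    · have h1 : (fun x => ∑ i : Fin 3, (V i x - U i x) * a i x) = fun x =>
          (- (∑ j : Fin 3, V j x * pd j φ x) - (∑ j : Fin 3, W j x * pd j R x)
          + ν * ∑ i : Fin 3, ∑ j : Fin 3, W i x * pd j (pd j (W i)) x)
        - ∑ i : Fin 3, ∑ j : Fin 3, W i x * W j x * pd j (U i) x := funext key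
      rw [h1]
      exact ((iA.neg.sub iC).add iD').sub iB
    · exact ((iA.neg.sub iC).add iD').add (iE.const_mul _)
    · intro x hx
      rw [key x]
      linarith [hB x hx]
  have step2 : ∫ x in Icc (0 : R3) 1, ((- (∑ j : Fin 3, V j x * pd j φ x)
          - (∑ j : Fin 3, W j x * pd j R x)
          + ν * ∑ i : Fin 3, ∑ j : Fin 3, W i x * pd j (pd j (W i)) x)
        + 3 * C * ∑ i : Fin 3, (V i x - U i x) ^ 2)
      = (- (∫ x in Icc (0 : R3) 1, ∑ j : Fin 3, V j x * pd j φ x)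
          - (∫ x in Icc (0 : R3) 1, ∑ j : Fin 3, W j x * pd j R x)
          + ν * ∑ i : Fin 3, ∫ x in Icc (0 : R3) 1, ∑ j : Fin 3, W i x * pd j (pd j (W i)) x)
        + 3 * C * ∫ x in Icc (0 : R3) 1, ∑ i : Fin 3, (V i x - U i x) ^ 2 := by
    have i1 : IntegrableOn (fun x => - (∑ j : Fin 3, V j x * pd j φ x)) (Icc (0 : R3) 1) := iA.neg
    have i2 : IntegrableOn (fun x => - (∑ j : Fin 3, V j x * pd j φ x)
        - (∑ j : Fin 3, W j x * pd j R x)) (Icc (0 : R3) 1) := i1.sub iC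
    have i3 : IntegrableOn (fun x => - (∑ j : Fin 3, V j x * pd j φ x)
        - (∑ j : Fin 3, W j x * pd j R x)
        + ν * ∑ i : Fin 3, ∑ j : Fin 3, W i x * pd j (pd j (W i)) x) (Icc (0 : R3) 1) :=
      i2.add iD'
    have i4 : IntegrableOn (fun x => 3 * C * ∑ i : Fin 3, (V i x - U i x) ^ 2)
        (Icc (0 : R3) 1) := iE.const_mul _
    rw [integral_add i3 i4, integral_add i2 iD', integral_sub i1 iC, integral_neg,
      integral_const_mul, integral_const_mul, integral_finsetSum _ fun i _ => iD i]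
  rw [step2, eA, eC] at step1
  have h5 : ν * ∑ i : Fin 3, ∫ x in Icc (0 : R3) 1, ∑ j : Fin 3, W i x * pd j (pd j (W i)) x ≤ 0 :=
    mul_nonpos_of_nonneg_of_nonpos hν (Finset.sum_nonpos fun i _ => eD i)
  linarith

end Vale.Agent.H77
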