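import Vale.Agent.H30.Fz.H77Spatial

/-!
Uniqueness of classical solutions of the forced Navier-Stokes system on the torus
(energy method).
-/

namespace Vale.Agent.H77
open Vale.Agent.H30
open MeasureTheory Set

/-- A nonnegative continuous function bounded by a multiple of its own primitive vanishes. -/
theorem eq_zero_of_le_integral {E : ℝ → ℝ} (hE : Continuous E) (hE0 : ∀ t, 0 ≤ E t) {T K : ℝ}
    (h : ∀ t ∈ Icc (0 : ℝ) T, E t ≤ K * ∫ s in (0 : ℝ)..t, E s) :
    ∀ t ∈ Icc (0 : ℝ) T, E t = 0 := by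
  intro t ht
  obtain ⟨G, hGdef⟩ : ∃ G : ℝ → ℝ, G = fun t => ∫ s in (0 : ℝ)..t, E s := ⟨_, rfl⟩
  have hGx : ∀ x, G x = ∫ s in (0 : ℝ)..x, E s := fun x => by rw [hGdef]
  have hG : ∀ x, HasDerivAt G (E x) x := fun x => by
    rw [hGdef]; exact (hE.integral_hasStrictDerivAt 0 x).hasDerivAt
  have hG0 : ∀ x, 0 ≤ x → 0 ≤ G x := fun x hx => by
    rw [hGx]; exact intervalIntegral.integral_nonneg hx (fun s _ => hE0 s)
  have h3 := norm_le_gronwallBound_of_norm_deriv_right_le (f := G) (f' := E) (δ := 0) (K := K)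
    (ε := 0) (a := 0) (b := T)
    (fun x _ => (hG x).continuousAt.continuousWithinAt) (fun x _ => (hG x).hasDerivWithinAt)
    (by rw [hGx]; simp)
    (fun x hx => by
      rw [Real.norm_of_nonneg (hE0 x), Real.norm_of_nonneg (hG0 x hx.1), add_zero, hGx]
      exact h x ⟨hx.1, hx.2.le⟩) t ht
  rw [gronwallBound_ε0_δ0, Real.norm_of_nonneg (hG0 t ht.1)] at h3
  have h4 : G t = 0 := le_antisymm h3 (hG0 t ht.1)
  have h5 := h t ht
  rw [← hGx, h4, mul_zero] at h5
  exact le_antisymm h5 (hE0 t)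

/-- The fundamental theorem of calculus for a function differentiable within `[0, T]`. -/
theorem ftc_on_Icc {T : ℝ} {f f' : ℝ → ℝ}
    (hf : ∀ t ∈ Icc (0 : ℝ) T, HasDerivWithinAt f (f' t) (Icc (0 : ℝ) T) t)
    (hf' : ContinuousOn f' (Icc (0 : ℝ) T)) {t : ℝ} (ht : t ∈ Icc (0 : ℝ) T) :
    f t - f 0 = ∫ s in (0 : ℝ)..t, f' s := by
  have hsub : Icc (0 : ℝ) t ⊆ Icc (0 : ℝ) T := Icc_subset_Icc_right ht.2
  symm
  refine intervalIntegral.integral_eq_sub_of_hasDerivAt_of_le ht.1 ?_ ?_ ?_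
  · exact fun s hs => ((hf s (hsub hs)).continuousWithinAt).mono hsub
  · intro s hs
    exact (hf s (hsub ⟨hs.1.le, hs.2.le⟩)).hasDerivAt
      (Icc_mem_nhds hs.1 (lt_of_lt_of_le hs.2 ht.2))
  · exact (hf'.mono (by rw [uIcc_of_le ht.1]; exact hsub)).intervalIntegrable

/-- Fubini on `cube × [0, t]` for a function continuous on `[0, T] × R3`. -/
theorem integral_cube_interval_swap {g : ℝ × R3 → ℝ} {T : ℝ}
    (hg : ContinuousOn g (Icc (0 : ℝ) T ×ˢ univ)) {t : ℝ} (ht : t ∈ Icc (0 : ℝ) T) :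
    ∫ x in Icc (0 : R3) 1, ∫ s in (0 : ℝ)..t, g (s, x)
      = ∫ s in (0 : ℝ)..t, ∫ x in Icc (0 : R3) 1, g (s, x) := by
  simp_rw [intervalIntegral.integral_of_le ht.1]
  refine integral_integral_swap (f := fun x s => g (s, x))
    (μ := volume.restrict (Icc (0 : R3) 1)) (ν := volume.restrict (Ioc (0 : ℝ) t)) ?_
  rw [Measure.prod_restrict]
  have hK : IsCompact (Icc (0 : R3) 1 ×ˢ Icc (0 : ℝ) t) := isCompact_Icc.prod isCompact_Icc
  have hc : ContinuousOn (Function.uncurry fun (x : R3) (s : ℝ) => g (s, x))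
      (Icc (0 : R3) 1 ×ˢ Icc (0 : ℝ) t) := by
    refine hg.comp continuous_swap.continuousOn ?_
    intro z hz
    exact ⟨⟨hz.2.1, hz.2.2.trans ht.2⟩, mem_univ _⟩
  exact (hc.integrableOn_compact hK).mono_set (prod_mono subset_rfl Ioc_subset_Icc_self)

/-- Continuity in time of a cube integral, after clamping the time to `[0, T]`. -/
theorem continuous_clamp_integral {h : ℝ × R3 → ℝ} {T : ℝ} (hT : 0 ≤ T)
    (hh : ContinuousOn h (Icc (0 : ℝ) T ×ˢ univ)) :
    Continuous (fun t : ℝ => ∫ x in Icc (0 : R3) 1, h (max 0 (min t T), x)) := by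
  have hc : Continuous (fun z : ℝ × R3 => h (max 0 (min z.1 T), z.2)) := by
    refine hh.comp_continuous (by fun_prop) ?_
    intro z
    exact ⟨⟨le_max_left _ _, max_le hT (min_le_right _ _)⟩, mem_univ _⟩
  exact continuous_parametric_integral_of_continuous
    (f := fun t x => h (max 0 (min t T), x)) hc isCompact_Icc

theorem clamp_eq {T t : ℝ} (ht : t ∈ Icc (0 : ℝ) T) : max 0 (min t T) = t := by
  rw [min_eq_left ht.2, max_eq_right ht.1]

/-- Component-level consequences of the definition of a classical solution. -/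
theorem classical_comp {ν : ℝ} {f : ℝ → R3 → R3} {T : ℝ} (hT : 0 < T)
    {u : ℝ → R3 → R3} {p : ℝ → R3 → ℝ} (h : IsClassical ν f T u p) (i : Fin 3) :
    ContinuousOn (fun z : ℝ × R3 => u z.1 z.2 i) (Icc (0 : ℝ) T ×ˢ univ) ∧
    ContinuousOn (fun z : ℝ × R3 => derivWithin (fun s => u s z.2 i) (Icc (0 : ℝ) T) z.1)
      (Icc (0 : ℝ) T ×ˢ univ) ∧
    ∀ t ∈ Icc (0 : ℝ) T, ∀ x : R3, HasDerivWithinAt (fun s => u s x i)
      (derivWithin (fun s => u s x i) (Icc (0 : ℝ) T) t) (Icc (0 : ℝ) T) t := by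
  obtain ⟨-, hc, hd, hdc, -⟩ := h
  have key : ∀ t ∈ Icc (0 : ℝ) T, ∀ x : R3, HasDerivWithinAt (fun s => u s x i)
      (derivWithin (fun s => u s x) (Icc (0 : ℝ) T) t i) (Icc (0 : ℝ) T) t := by
    intro t ht x
    exact hasDerivWithinAt_pi.1 (hd t ht x).hasDerivWithinAt i
  have key2 : ∀ t ∈ Icc (0 : ℝ) T, ∀ x : R3, derivWithin (fun s => u s x i) (Icc (0 : ℝ) T) t
      = derivWithin (fun s => u s x) (Icc (0 : ℝ) T) t i := fun t ht x =>
    (key t ht x).derivWithin (uniqueDiffOn_Icc hT t ht)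
  refine ⟨(continuous_apply i).comp_continuousOn hc, ?_, ?_⟩
  · refine ((continuous_apply i).comp_continuousOn hdc).congr ?_
    intro z hz
    exact key2 z.1 hz.1 z.2
  · intro t ht x
    rw [key2 t ht x]
    exact key t ht x


/-- The energy of the difference of two classical solutions vanishes. -/
theorem energy_zero {ν : ℝ} (hν : 0 < ν) {f : ℝ → R3 → R3} {T : ℝ} (hT : 0 < T)
    {u v : ℝ → R3 → R3} {p q : ℝ → R3 → ℝ}
    (h1 : IsClassical ν f T u p) (h2 : IsClassical ν f T v q) :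
    ∀ t ∈ Icc (0 : ℝ) T,
      ∫ x in Icc (0 : R3) 1, ∑ i : Fin 3, (v t x i - u t x i) ^ 2 = 0 := by
  have cu := fun i => classical_comp hT h1 i
  have cv := fun i => classical_comp hT h2 i
  obtain ⟨hu_per, -, -, -, hu_c2, hu_dx, -, hp_diff, hp_dx, -, hu0, hu_eq⟩ := h1
  obtain ⟨hv_per, -, -, -, hv_c2, hv_dx, -, hq_diff, hq_dx, -, hv0, hv_eq⟩ := h2
  obtain ⟨w, hwdef⟩ : ∃ w : Fin 3 → ℝ × R3 → ℝ, w = fun i z => v z.1 z.2 i - u z.1 z.2 i :=
    ⟨_, rfl⟩
  obtain ⟨a, hadef⟩ : ∃ a : Fin 3 → ℝ × R3 → ℝ, a = fun i z =>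
      derivWithin (fun s => v s z.2 i) (Icc (0 : ℝ) T) z.1
        - derivWithin (fun s => u s z.2 i) (Icc (0 : ℝ) T) z.1 := ⟨_, rfl⟩
  have hwc : ∀ i, ContinuousOn (w i) (Icc (0 : ℝ) T ×ˢ univ) := fun i => by
    rw [hwdef]; exact (cv i).1.sub (cu i).1
  have hac : ∀ i, ContinuousOn (a i) (Icc (0 : ℝ) T ×ˢ univ) := fun i => by
    rw [hadef]; exact (cv i).2.1.sub (cu i).2.1
  have hwd : ∀ i, ∀ t ∈ Icc (0 : ℝ) T, ∀ x : R3,
      HasDerivWithinAt (fun s => w i (s, x)) (a i (t, x)) (Icc (0 : ℝ) T) t := by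
    intro i t ht x
    rw [hwdef, hadef]
    exact ((cv i).2.2 t ht x).sub ((cu i).2.2 t ht x)
  obtain ⟨e, hedef⟩ : ∃ e : ℝ × R3 → ℝ, e = fun z => ∑ i : Fin 3, (w i z) ^ 2 := ⟨_, rfl⟩
  obtain ⟨g, hgdef⟩ : ∃ g : ℝ × R3 → ℝ, g = fun z => 2 * ∑ i : Fin 3, w i z * a i z :=
    ⟨_, rfl⟩
  have hec : ContinuousOn e (Icc (0 : ℝ) T ×ˢ univ) := by
    rw [hedef]; exact continuousOn_finsetSum _ fun i _ => (hwc i).pow 2
  have hgc : ContinuousOn g (Icc (0 : ℝ) T ×ˢ univ) := by
    rw [hgdef]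
    exact continuousOn_const.mul (continuousOn_finsetSum _ fun i _ => (hwc i).mul (hac i))
  have he0 : ∀ z, 0 ≤ e z := fun z => by
    rw [hedef]; exact Finset.sum_nonneg fun i _ => sq_nonneg _
  -- the fundamental theorem of calculus at each point
  have hftc : ∀ t ∈ Icc (0 : ℝ) T, ∀ x : R3, e (t, x) = ∫ s in (0 : ℝ)..t, g (s, x) := by
    intro t ht x
    have hd : ∀ s ∈ Icc (0 : ℝ) T,
        HasDerivWithinAt (fun s => e (s, x)) (g (s, x)) (Icc (0 : ℝ) T) s := by
      intro s hs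
      rw [hedef, hgdef]
      have h3 : ∀ i ∈ (Finset.univ : Finset (Fin 3)),
          HasDerivWithinAt (fun s => (w i (s, x)) ^ 2) (2 * w i (s, x) * a i (s, x))
            (Icc (0 : ℝ) T) s := by
        intro i _
        have h4 := (hwd i s hs x).fun_pow 2
        simpa using h4
      have h4 := HasDerivWithinAt.fun_sum h3
      show HasDerivWithinAt (fun s => ∑ i : Fin 3, (w i (s, x)) ^ 2)
        (2 * ∑ i : Fin 3, w i (s, x) * a i (s, x)) (Icc (0 : ℝ) T) s
      refine h4.congr_deriv ?_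
      rw [Finset.mul_sum]
      exact Finset.sum_congr rfl fun i _ => by ring
    have hg' : ContinuousOn (fun s => g (s, x)) (Icc (0 : ℝ) T) :=
      hgc.comp (by fun_prop : Continuous fun s : ℝ => (s, x)).continuousOn
        (fun s hs => ⟨hs, mem_univ _⟩)
    have h5 := ftc_on_Icc hd hg' ht
    have h6 : e (0, x) = 0 := by
      rw [hedef, hwdef]; simp [hu0, hv0]
    rw [h6, sub_zero] at h5
    exact h5
  -- Fubini
  have hfub : ∀ t ∈ Icc (0 : ℝ) T, ∫ x in Icc (0 : R3) 1, e (t, x)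
      = ∫ s in (0 : ℝ)..t, ∫ x in Icc (0 : R3) 1, g (s, x) := by
    intro t ht
    rw [← integral_cube_interval_swap hgc ht]
    exact integral_congr_ae (Filter.Eventually.of_forall fun x => hftc t ht x)
  -- a bound for the first derivatives of u
  obtain ⟨C, hC⟩ : ∃ C : ℝ, ∀ i j : Fin 3, ∀ s ∈ Icc (0 : ℝ) T, ∀ x ∈ Icc (0 : R3) 1,
      |pd j (fun y => u s y i) x| ≤ C := by
    have hK : IsCompact (Icc (0 : ℝ) T ×ˢ Icc (0 : R3) 1) := isCompact_Icc.prod isCompact_Icc
    have h3 : ∀ ij : Fin 3 × Fin 3, ∃ C : ℝ, ∀ z ∈ Icc (0 : ℝ) T ×ˢ Icc (0 : R3) 1,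
        ‖pd ij.2 (fun y => u z.1 y ij.1) z.2‖ ≤ C := fun ij =>
      hK.exists_bound_of_continuousOn
        ((hu_dx ij.1 ij.2).1.mono (prod_mono subset_rfl (subset_univ _)))
    choose Cf hCf using h3
    refine ⟨∑ ij, |Cf ij|, fun i j s hs x hx => ?_⟩
    have h4 := hCf (i, j) (s, x) ⟨hs, hx⟩
    rw [Real.norm_eq_abs] at h4
    exact h4.trans ((le_abs_self _).trans (Finset.single_le_sum (f := fun ij => |Cf ij|)
      (fun _ _ => abs_nonneg _) (Finset.mem_univ (i, j))))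
  -- the spatial inequality at each time
  have hsp : ∀ s ∈ Icc (0 : ℝ) T, ∫ x in Icc (0 : R3) 1, g (s, x)
      ≤ (6 * C) * ∫ x in Icc (0 : R3) 1, e (s, x) := by
    intro s hs
    have h3 := spatial_energy hν.le (fun i y => u s y i) (fun i y => v s y i) (p s) (q s)
      (fun i => contDiff_pi.1 (hu_c2 s hs) i) (fun i => contDiff_pi.1 (hv_c2 s hs) i)
      (fun i x k => congrFun ((hu_per s hs).1 x k) i)
      (fun i x k => congrFun ((hv_per s hs).1 x k) i)
      (hp_diff s hs) (hq_diff s hs) (hu_per s hs).2 (hv_per s hs).2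
      (fun i => (hp_dx i).comp_continuous (by fun_prop : Continuous fun x : R3 => (s, x))
        (fun x => ⟨hs, mem_univ _⟩))
      (fun i => (hq_dx i).comp_continuous (by fun_prop : Continuous fun x : R3 => (s, x))
        (fun x => ⟨hs, mem_univ _⟩))
      (fun x => (hu_eq s hs x).1) (fun x => (hv_eq s hs x).1)
      C (fun i j x hx => hC i j s hs x hx)
      (fun i x => a i (s, x))
      (by
        intro i x
        have e1 := (hu_eq s hs x).2 i
        have e2 := (hv_eq s hs x).2 i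
        rw [hadef]
        simp only
        linarith)
    have h4 : ∫ x in Icc (0 : R3) 1, g (s, x)
        = 2 * ∫ x in Icc (0 : R3) 1, ∑ i : Fin 3, (v s x i - u s x i) * a i (s, x) := by
      rw [hgdef, hwdef]
      simp only
      rw [integral_const_mul]
    have h5 : ∫ x in Icc (0 : R3) 1, e (s, x)
        = ∫ x in Icc (0 : R3) 1, ∑ i : Fin 3, (v s x i - u s x i) ^ 2 := by
      rw [hedef, hwdef]
    rw [h4, h5]
    linarith
  -- clamped functions and the Gronwall argument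
  have hEc := continuous_clamp_integral hT.le hec
  have hDc := continuous_clamp_integral hT.le hgc
  have hmain := eq_zero_of_le_integral
    (E := fun t => ∫ x in Icc (0 : R3) 1, e (max 0 (min t T), x)) (T := T) (K := 6 * C) hEc
    (fun t => integral_nonneg fun x => he0 _) ?_
  · intro t ht
    have h3 := hmain t ht
    simp only [clamp_eq ht] at h3
    rw [hedef, hwdef] at h3
    exact h3
  · intro t ht
    simp only [clamp_eq ht]
    rw [hfub t ht]
    have h3 : ∫ s in (0 : ℝ)..t, ∫ x in Icc (0 : R3) 1, g (s, x)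
        = ∫ s in (0 : ℝ)..t, ∫ x in Icc (0 : R3) 1, g (max 0 (min s T), x) := by
      refine intervalIntegral.integral_congr fun s hs => ?_
      rw [uIcc_of_le ht.1] at hs
      simp only [clamp_eq (⟨hs.1, hs.2.trans ht.2⟩ : s ∈ Icc (0 : ℝ) T)]
    rw [h3, ← intervalIntegral.integral_const_mul]
    refine intervalIntegral.integral_mono_on ht.1 (hDc.intervalIntegrable _ _)
      ((continuous_const.mul hEc).intervalIntegrable _ _) ?_
    intro s hs
    have hs' : s ∈ Icc (0 : ℝ) T := ⟨hs.1, hs.2.trans ht.2⟩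
    simp only [clamp_eq hs']
    exact hsp s hs'


theorem cube_subset_closure_interior :
    Icc (0 : R3) 1 ⊆ closure (interior (Icc (0 : R3) 1)) := by
  have h : Icc (0 : R3) 1 = Set.pi univ (fun i : Fin 3 => Icc ((0 : R3) i) ((1 : R3) i)) :=
    (Set.pi_univ_Icc (0 : R3) 1).symm
  rw [h, interior_pi_set finite_univ, closure_pi_set]
  simp [interior_Icc, closure_Ioo]

theorem eq_zero_on_cube {φ : R3 → ℝ} (hφ : Continuous φ) (h0 : ∀ x, 0 ≤ φ x)
    (hint : ∫ x in Icc (0 : R3) 1, φ x = 0) : ∀ x ∈ Icc (0 : R3) 1, φ x = 0 := by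
  have h1 : φ =ᵐ[volume.restrict (Icc (0 : R3) 1)] 0 :=
    (integral_eq_zero_iff_of_nonneg (fun x => h0 x) hφ.integrableOn_Icc).1 hint
  exact Measure.eqOn_of_ae_eq h1 hφ.continuousOn continuousOn_const
    cube_subset_closure_interior

theorem per3_reduce {α : Type} {φ : R3 → α} (h : Per3 φ) (x : R3) :
    φ x = φ (fun i => Int.fract (x i)) := by
  have h1 := h (fun i => Int.fract (x i)) (fun i => ⌊x i⌋)
  rw [← h1]
  congr 1
  funext i
  exact (Int.fract_add_floor (x i)).symm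

theorem fract_mem_cube (x : R3) : (fun i => Int.fract (x i)) ∈ Icc (0 : R3) 1 :=
  ⟨fun _ => Int.fract_nonneg _, fun _ => (Int.fract_lt_one _).le⟩

theorem velocity_unique {ν : ℝ} (hν : 0 < ν) {f : ℝ → R3 → R3} {T : ℝ} (hT : 0 < T)
    {u v : ℝ → R3 → R3} {p q : ℝ → R3 → ℝ}
    (h1 : IsClassical ν f T u p) (h2 : IsClassical ν f T v q) :
    ∀ t ∈ Icc (0 : ℝ) T, ∀ x : R3, v t x = u t x := by
  intro t ht x
  have hE := energy_zero hν hT h1 h2 t ht
  obtain ⟨hu_per, -, -, -, hu_c2, -⟩ := h1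
  obtain ⟨hv_per, -, -, -, hv_c2, -⟩ := h2
  have hφ : Continuous (fun x => ∑ i : Fin 3, (v t x i - u t x i) ^ 2) :=
    continuous_finsetSum _ fun i _ =>
      (((continuous_apply i).comp (hv_c2 t ht).continuous).sub
        ((continuous_apply i).comp (hu_c2 t ht).continuous)).pow 2
  have h0 := eq_zero_on_cube hφ (fun x => Finset.sum_nonneg fun i _ => sq_nonneg _) hE
  rw [per3_reduce (hv_per t ht).1 x, per3_reduce (hu_per t ht).1 x]
  funext i
  have h3 := (Finset.sum_eq_zero_iff_of_nonneg (fun i _ => sq_nonneg _)).1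
    (h0 _ (fract_mem_cube x)) i (Finset.mem_univ i)
  have h4 := pow_eq_zero_iff (two_ne_zero) |>.1 h3
  linarith

theorem pressure_unique {ν : ℝ} {f : ℝ → R3 → R3} {T : ℝ}
    {u v : ℝ → R3 → R3} {p q : ℝ → R3 → ℝ}
    (h1 : IsClassical ν f T u p) (h2 : IsClassical ν f T v q)
    (hvu : ∀ t ∈ Icc (0 : ℝ) T, ∀ x : R3, v t x = u t x) :
    ∀ t ∈ Icc (0 : ℝ) T, ∀ x : R3, q t x = p t x := by
  intro t ht x
  obtain ⟨-, -, -, -, -, -, -, hp_diff, -, hp_mean, -, hu_eq⟩ := h1
  obtain ⟨-, -, -, -, -, -, -, hq_diff, -, hq_mean, -, hv_eq⟩ := h2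
  have hvt : v t = u t := funext (hvu t ht)
  have hgrad : ∀ i y, pd i (q t) y = pd i (p t) y := by
    intro i y
    have e1 := (hu_eq t ht y).2 i
    have e2 := (hv_eq t ht y).2 i
    have e3 : derivWithin (fun s => v s y i) (Icc (0 : ℝ) T) t
        = derivWithin (fun s => u s y i) (Icc (0 : ℝ) T) t :=
      derivWithin_congr (fun s hs => by rw [hvu s hs y]) (by rw [hvu t ht y])
    rw [e3, hvt] at e2
    linarith
  have hd : Differentiable ℝ (fun y => q t y - p t y) := (hq_diff t ht).sub (hp_diff t ht)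
  have hfd : ∀ y, fderiv ℝ (fun y => q t y - p t y) y = 0 := by
    intro y
    have h3 : ∀ i, fderiv ℝ (fun y => q t y - p t y) y (Pi.single i 1) = 0 := by
      intro i
      have h4 := pd_sub (hq_diff t ht y) (hp_diff t ht y) i
      have h5 := hgrad i y
      unfold pd at h4 h5
      rw [h4, h5, sub_self]
    refine ContinuousLinearMap.ext fun z => ?_
    have hz : z = ∑ i : Fin 3, z i • (Pi.single i (1 : ℝ) : R3) := by
      funext j
      simp [Finset.sum_apply, Pi.single_apply]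
    rw [hz, map_sum]
    simp [h3]
  have hconst : ∀ y, q t y - p t y = q t x - p t x := fun y =>
    is_const_of_fderiv_eq_zero hd hfd y x
  have hi : ∫ y in Icc (0 : R3) 1, (q t y - p t y) = 0 := by
    rw [integral_sub (hq_diff t ht).continuous.integrableOn_Icc
      (hp_diff t ht).continuous.integrableOn_Icc, hq_mean t ht, hp_mean t ht, sub_zero]
  have hi2 : ∫ y in Icc (0 : R3) 1, (q t y - p t y) = q t x - p t x := by
    rw [integral_congr_ae (Filter.Eventually.of_forall hconst), setIntegral_const]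
    simp [measureReal_def, Real.volume_Icc_pi_toReal (zero_le_one : (0 : R3) ≤ 1)]
  rw [hi2] at hi
  linarith

/-- Uniqueness of classical solutions of the forced Navier-Stokes system on the torus. -/
theorem classical_unique {ν : ℝ} (hν : 0 < ν) {f : ℝ → R3 → R3} {T : ℝ} (hT : 0 < T)
    {u v : ℝ → R3 → R3} {p q : ℝ → R3 → ℝ}
    (h1 : IsClassical ν f T u p) (h2 : IsClassical ν f T v q) :
    ∀ t ∈ Set.Icc (0 : ℝ) T, ∀ x : R3, v t x = u t x ∧ q t x = p t x := by
  have hv := velocity_unique hν hT h1 h2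
  have hp := pressure_unique h1 h2 hv
  exact fun t ht x => ⟨hv t ht x, hp t ht x⟩

end Vale.Agent.H77
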