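import Vale.Agent.H30.NS.Build

/-!
Basic facts on the lookup function `gfun = bumpPer (Wfun 0 1) etaW` (P113, TASK GFACT):
periodicity, the value at the centre `cq N` of the `N`-th bump, elementary bounds on the
halting weights `etaW`, and smoothness (given the smoothness statement for `bumpPer`).
-/

namespace Vale.Agent.H8

open Vale.Agent.H30

/-- The inner series of `etaW` is summable. -/
theorem etaW_inner_summable (N : ℕ) :
    Summable (fun T : ℕ => if reach N T then (1 / 2 : ℝ) ^ (T + 1) else 0) := by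
  refine Summable.of_nonneg_of_le (fun T => ?_) (fun T => ?_) (summable_geometric_two' 1)
  · split_ifs
    · positivity
    · exact le_rfl
  · have h : (1 / 2 : ℝ) ^ (T + 1) = 1 / 2 / 2 ^ T := by
      rw [pow_succ, one_div_pow]; ring
    split_ifs
    · exact h.le
    · positivity

theorem etaW_inner_nonneg (N : ℕ) :
    0 ≤ ∑' T : ℕ, if reach N T then (1 / 2 : ℝ) ^ (T + 1) else 0 := by
  refine tsum_nonneg fun T => ?_
  split_ifs
  · positivity
  · exact le_rfl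

theorem etaW_inner_le_one (N : ℕ) :
    (∑' T : ℕ, if reach N T then (1 / 2 : ℝ) ^ (T + 1) else 0) ≤ 1 := by
  have h2 : ∑' T : ℕ, (1 : ℝ) / 2 / 2 ^ T = 1 := tsum_geometric_two' 1
  refine le_of_le_of_eq ?_ h2
  refine Summable.tsum_le_tsum (fun T => ?_) (etaW_inner_summable N) (summable_geometric_two' 1)
  have h : (1 / 2 : ℝ) ^ (T + 1) = 1 / 2 / 2 ^ T := by
    rw [pow_succ, one_div_pow]; ring
  split_ifs
  · exact h.le
  · positivity

/-- The halting weights are nonnegative. -/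
theorem etaW_nonneg' (N : ℕ) : 0 ≤ etaW N :=
  mul_nonneg (by positivity) (etaW_inner_nonneg N)

/-- The halting weights are at most `2 ^ (-N)`. -/
theorem etaW_le' (N : ℕ) : etaW N ≤ (1 / 2 : ℝ) ^ N := by
  have h := mul_le_mul_of_nonneg_left (etaW_inner_le_one N)
    (show (0 : ℝ) ≤ (1 / 2 : ℝ) ^ N by positivity)
  rw [mul_one] at h
  exact h

theorem etaW_abs_le (N : ℕ) : |etaW N| ≤ (1 / 2 : ℝ) ^ N := by
  rw [abs_of_nonneg (etaW_nonneg' N)]
  exact etaW_le' N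

/-- `gfun` is `1`-periodic. -/
theorem gfun_periodic (x : ℝ) (k : ℤ) : gfun (x + k) = gfun x := by
  unfold gfun bumpPer
  rw [Int.fract_add_intCast]

theorem cq_cast (N : ℕ) :
    ((cq N : ℚ) : ℝ) = 1 / ((N : ℝ) + 3) + 1 / (2 * ((N : ℝ) + 2) * ((N : ℝ) + 3)) := by
  simp [cq]

theorem cq_pos (N : ℕ) : 0 < ((cq N : ℚ) : ℝ) := by
  rw [cq_cast]; positivity

/-- `cq N` lies strictly to the right of the left end `1 / (N + 3)` of the `N`-th bump. -/
theorem cq_gt (N : ℕ) : 1 / ((N : ℝ) + 3) < ((cq N : ℚ) : ℝ) := by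
  rw [cq_cast]
  have : (0 : ℝ) < 1 / (2 * ((N : ℝ) + 2) * ((N : ℝ) + 3)) := by positivity
  linarith

/-- `cq N` lies strictly to the left of the right end `1 / (N + 2)` of the `N`-th bump. -/
theorem cq_lt (N : ℕ) : ((cq N : ℚ) : ℝ) < 1 / ((N : ℝ) + 2) := by
  have hN : (0 : ℝ) ≤ N := Nat.cast_nonneg N
  have h : 1 / ((N : ℝ) + 2) - ((cq N : ℚ) : ℝ) = 1 / (2 * ((N : ℝ) + 2) * ((N : ℝ) + 3)) := by
    rw [cq_cast]
    field_simp
    ring
  have : (0 : ℝ) < 1 / (2 * ((N : ℝ) + 2) * ((N : ℝ) + 3)) := by positivity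
  linarith

theorem cq_lt_one (N : ℕ) : ((cq N : ℚ) : ℝ) < 1 := by
  have hN : (0 : ℝ) ≤ N := Nat.cast_nonneg N
  have h1 : 1 / ((N : ℝ) + 2) ≤ 1 := by
    rw [div_le_one (by positivity)]; linarith
  exact lt_of_lt_of_le (cq_lt N) h1

theorem cq_le_half (N : ℕ) : ((cq N : ℚ) : ℝ) ≤ 1 / 2 := by
  have hN : (0 : ℝ) ≤ N := Nat.cast_nonneg N
  have h1 : 1 / ((N : ℝ) + 2) ≤ 1 / 2 :=
    one_div_le_one_div_of_le (by norm_num) (by linarith)
  exact (cq_lt N).le.trans h1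

theorem cq_fract (N : ℕ) : Int.fract ((cq N : ℚ) : ℝ) = ((cq N : ℚ) : ℝ) :=
  Int.fract_eq_self.2 ⟨(cq_pos N).le, cq_lt_one N⟩

/-- The rescaled position of `cq N` inside the `N`-th bump is `1 / 2`. -/
theorem cq_arg (N : ℕ) :
    (((cq N : ℚ) : ℝ) - 1 / ((N : ℝ) + 3)) * (((N : ℝ) + 2) * ((N : ℝ) + 3)) = 1 / 2 := by
  have hN : (0 : ℝ) ≤ N := Nat.cast_nonneg N
  rw [cq_cast]
  field_simp
  ring

theorem Wfun_half : Wfun 0 1 (1 / 2) = Real.exp (-1) * Real.exp (-1) := by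
  rw [Wfun, Efun_of_pos (by norm_num), Efun_of_pos (by norm_num)]
  norm_num

/-- The value of `gfun` at the centre of the `N`-th bump. -/
theorem gfun_cq (N : ℕ) : gfun ((cq N : ℚ) : ℝ) = etaW N * (Real.exp (-1) * Real.exp (-1)) := by
  have hN : (0 : ℝ) ≤ N := Nat.cast_nonneg N
  unfold gfun bumpPer bumpSum
  rw [cq_fract, tsum_eq_single N]
  · rw [cq_arg, Wfun_half]
  · intro M hM
    have hM0 : (0 : ℝ) ≤ M := Nat.cast_nonneg M
    have hpos : (0 : ℝ) < ((M : ℝ) + 2) * ((M : ℝ) + 3) := by positivity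
    rcases lt_or_gt_of_ne hM with h | h
    · -- `M < N`: the point lies to the left of the `M`-th bump
      have hMN : (M : ℝ) + 1 ≤ N := by exact_mod_cast h
      have h1 : 1 / ((N : ℝ) + 2) ≤ 1 / ((M : ℝ) + 3) :=
        one_div_le_one_div_of_le (by positivity) (by linarith)
      have h2 : ((cq N : ℚ) : ℝ) - 1 / ((M : ℝ) + 3) ≤ 0 := by
        have := cq_lt N
        linarith
      have h3 : (((cq N : ℚ) : ℝ) - 1 / ((M : ℝ) + 3)) * (((M : ℝ) + 2) * ((M : ℝ) + 3)) ≤ -0 := by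
        rw [neg_zero]
        exact mul_nonpos_of_nonpos_of_nonneg h2 hpos.le
      rw [Wfun_eq_zero (Or.inl h3), mul_zero]
    · -- `N < M`: the point lies to the right of the `M`-th bump
      have hMN : (N : ℝ) + 1 ≤ M := by exact_mod_cast h
      have h1 : 1 / ((M : ℝ) + 2) ≤ 1 / ((N : ℝ) + 3) :=
        one_div_le_one_div_of_le (by positivity) (by linarith)
      have h2 : 1 / ((M : ℝ) + 2) - 1 / ((M : ℝ) + 3) ≤ ((cq N : ℚ) : ℝ) - 1 / ((M : ℝ) + 3) := by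
        have := cq_gt N
        linarith
      have h4 : (1 / ((M : ℝ) + 2) - 1 / ((M : ℝ) + 3)) * (((M : ℝ) + 2) * ((M : ℝ) + 3)) = 1 := by
        field_simp
        ring
      have h3 : 1 ≤ (((cq N : ℚ) : ℝ) - 1 / ((M : ℝ) + 3)) * (((M : ℝ) + 2) * ((M : ℝ) + 3)) :=
        le_of_eq_of_le h4.symm (mul_le_mul_of_nonneg_right h2 hpos.le)
      rw [Wfun_eq_zero (Or.inr h3), mul_zero]

/-- Smoothness of `gfun`, given the smoothness statement for periodised bump series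
(TASK SUM, `bumpPer_contDiff`, with exactly its posted statement). -/
theorem gfun_smooth_of
    (hsum : ∀ (B : ℝ → ℝ) (η : ℕ → ℝ), (∀ n : ℕ, ContDiff ℝ n B) → (∀ s, s ≤ 0 → B s = 0) →
      (∀ s, 1 ≤ s → B s = 0) → (∀ N, |η N| ≤ (1 / 2 : ℝ) ^ N) → ∀ n : ℕ,
      ContDiff ℝ n (bumpPer B η)) (n : ℕ) : ContDiff ℝ n gfun :=
  hsum (Wfun 0 1) etaW (Wfun_contDiff 0 1)
    (fun s hs => Wfun_eq_zero (Or.inl (by simpa using hs)))
    (fun s hs => Wfun_eq_zero (Or.inr hs)) etaW_abs_le n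

end Vale.Agent.H8
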