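import Vale.Agent.H30.Fz.H8GFact
import Vale.Agent.H30.Fz.H10BumpSum

/-!
Smoothness of the lookup function `gfun` (P113, TASK GFACT, final version).
-/

namespace Vale.Agent.H8

open Vale.Agent.H30

/-- The lookup function `gfun` is smooth. -/
theorem gfun_smooth (n : ℕ) : ContDiff ℝ n gfun :=
  gfun_smooth_of Vale.Agent.H10.bumpPer_contDiff n

end Vale.Agent.H8
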