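import Vale.Agent.H30.NS.Build
import Vale.Agent.H30.Fz.H7CRat
import Vale.Agent.H30.Fz.H91CReal
import Vale.Agent.H30.Fz.H10BumpSum

/-!
All derivatives of the lookup function `gfun` at rational points are computable reals
(TASK GDER of the P113 development).
-/

namespace Vale.Agent.H97

open Vale.Agent.H30 Vale.Agent.H7 Vale.Agent.H91

/-- Fractional part of the rational point read from a triple. -/
def gFr (q : ℕ × ℕ × ℕ) : ℚ := Int.fract (ratOf q)

/-- Index of the bump whose interval contains the fractional part. -/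
def gIdx (q : ℕ × ℕ × ℕ) : ℕ := ⌊1 / gFr q⌋₊ - 2

/-- The scaling factor `(N + 2) (N + 3)` of that bump. -/
def gScale (q : ℕ × ℕ × ℕ) : ℚ := ((gIdx q : ℚ) + 2) * ((gIdx q : ℚ) + 3)

/-- The rescaled argument inside that bump. -/
def gArg (q : ℕ × ℕ × ℕ) : ℚ := (gFr q - 1 / ((gIdx q : ℚ) + 3)) * gScale q

theorem gFr_crat : CRat gFr := CRat.fract CRat.ratOf

theorem gIdx_comp : Computable gIdx :=
  Primrec.nat_sub.to_comp.comp (CRat.floor (CRat.div (CRat.const 1) gFr_crat))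
    (Computable.const 2)

theorem gScale_crat : CRat gScale :=
  CRat.mul (CRat.add (CRat.natCast gIdx_comp) (CRat.const 2))
    (CRat.add (CRat.natCast gIdx_comp) (CRat.const 3))

theorem gArg_crat : CRat gArg :=
  CRat.mul (CRat.sub gFr_crat
    (CRat.div (CRat.const 1) (CRat.add (CRat.natCast gIdx_comp) (CRat.const 3)))) gScale_crat

theorem natFloor_ratCast (x : ℚ) : ⌊(x : ℝ)⌋₊ = ⌊x⌋₊ := by
  rw [← Int.floor_toNat, ← Int.floor_toNat, Rat.floor_cast]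

theorem fract_qv (q : ℕ × ℕ × ℕ) : Int.fract (qv q) = ((gFr q : ℚ) : ℝ) := by
  rw [qv_eq_ratOf, gFr, Rat.cast_fract]

theorem natFloor_inv_fract_qv (q : ℕ × ℕ × ℕ) : ⌊1 / Int.fract (qv q)⌋₊ - 2 = gIdx q := by
  rw [fract_qv, gIdx]
  have : (1 : ℝ) / ((gFr q : ℚ) : ℝ) = ((1 / gFr q : ℚ) : ℝ) := by push_cast; rfl
  rw [this, natFloor_ratCast]

/-- Closed formula for the derivatives of `gfun` at a rational point. -/
theorem gfun_iteratedDeriv_rat (hη : ∀ N, |etaW N| ≤ (1 / 2 : ℝ) ^ N) (j : ℕ)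
    (q : ℕ × ℕ × ℕ) :
    iteratedDeriv j gfun (qv q) =
      if (decide (0 < gFr q) && decide (gFr q ≤ 1 / 2)) = true then
        etaW (gIdx q) * ((gScale q ^ j : ℚ) : ℝ)
          * iteratedDeriv j (Wfun 0 1) ((gArg q : ℚ) : ℝ)
      else 0 := by
  have hB : ∀ n : ℕ, ContDiff ℝ n (Wfun 0 1) := fun n => Wfun_contDiff 0 1 n
  have hB0 : ∀ s : ℝ, s ≤ 0 → Wfun 0 1 s = 0 := fun s hs =>
    Wfun_eq_zero (Or.inl (by simpa using hs))
  have hB1 : ∀ s : ℝ, 1 ≤ s → Wfun 0 1 s = 0 := fun s hs => Wfun_eq_zero (Or.inr hs)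
  have key := Vale.Agent.H10.bumpPer_iteratedDeriv (Wfun 0 1) etaW hB hB0 hB1 hη j (qv q)
  have hg : gfun = bumpPer (Wfun 0 1) etaW := rfl
  rw [hg, key, natFloor_inv_fract_qv, fract_qv]
  have hc : ((0 : ℝ) < ((gFr q : ℚ) : ℝ) ∧ ((gFr q : ℚ) : ℝ) ≤ 1 / 2) ↔
      (decide (0 < gFr q) && decide (gFr q ≤ 1 / 2)) = true := by
    rw [Bool.and_eq_true, decide_eq_true_eq, decide_eq_true_eq]
    constructor
    · rintro ⟨h1, h2⟩
      refine ⟨by exact_mod_cast h1, ?_⟩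
      have : ((gFr q : ℚ) : ℝ) ≤ ((1 / 2 : ℚ) : ℝ) := by push_cast; exact h2
      exact_mod_cast this
    · rintro ⟨h1, h2⟩
      refine ⟨by exact_mod_cast h1, ?_⟩
      have : ((gFr q : ℚ) : ℝ) ≤ ((1 / 2 : ℚ) : ℝ) := by exact_mod_cast h2
      simpa using this
  by_cases h : (decide (0 < gFr q) && decide (gFr q ≤ 1 / 2)) = true
  · rw [if_pos h, if_pos (hc.2 h)]
    simp only [gArg, gScale]
    push_cast
    rfl
  · rw [if_neg h, if_neg (fun h' => h (hc.1 h'))]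

/-- TASK GDER, with the facts on `etaW` (TASK ETA) and the computability of the derivatives of
the window `Wfun 0 1` (TASK WDER) as hypotheses. -/
theorem gfun_deriv_creal_of (hη : ∀ N, |etaW N| ≤ (1 / 2 : ℝ) ^ N)
    (hE : CReal (fun N : ℕ => etaW N))
    (hW : CReal (fun p : ℕ × (ℕ × ℕ × ℕ) =>
      iteratedDeriv p.1 (Wfun ((0 : ℚ) : ℝ) ((1 : ℚ) : ℝ)) (qv p.2))) :
    CReal (fun p : ℕ × (ℕ × ℕ × ℕ) => iteratedDeriv p.1 gfun (qv p.2)) := by
  have hW' : CReal (fun p : ℕ × (ℕ × ℕ × ℕ) => iteratedDeriv p.1 (Wfun 0 1) (qv p.2)) := by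
    simpa using hW
  obtain ⟨R, hR, hRr⟩ := gArg_crat
  have h1 : CReal (fun p : ℕ × (ℕ × ℕ × ℕ) => etaW (gIdx p.2)) :=
    CReal.comp hE (gIdx_comp.comp Computable.snd)
  have h2 : CReal (fun p : ℕ × (ℕ × ℕ × ℕ) => ((gScale p.2 ^ p.1 : ℚ) : ℝ)) :=
    CReal.of_rat (CRat.pow (CRat.comp gScale_crat Computable.snd) Computable.fst)
  have h3 : CReal (fun p : ℕ × (ℕ × ℕ × ℕ) => iteratedDeriv p.1 (Wfun 0 1) (qv (R p.2))) :=
    CReal.comp hW' (g := fun p : ℕ × (ℕ × ℕ × ℕ) => (p.1, R p.2))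
      (Computable.pair Computable.fst (hR.comp Computable.snd))
  have hc : Computable (fun p : ℕ × (ℕ × ℕ × ℕ) =>
      (decide (0 < gFr p.2) && decide (gFr p.2 ≤ 1 / 2))) :=
    Primrec.and.to_comp.comp
      (CRat.decide_lt (CRat.const 0) (CRat.comp gFr_crat Computable.snd))
      (CRat.decide_le (CRat.comp gFr_crat Computable.snd) (CRat.const (1 / 2)))
  have h0 : CReal (fun _ : ℕ × (ℕ × ℕ × ℕ) => (0 : ℝ)) := by
    simpa using CReal.of_rat (α := ℕ × (ℕ × ℕ × ℕ)) (CRat.const 0)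
  have hall := CReal.ite hc (CReal.mul (CReal.mul h1 h2) h3) h0
  refine (congrArg CReal (funext fun p => ?_)).mp hall
  rw [gfun_iteratedDeriv_rat hη p.1 p.2, qv_eq_ratOf, hRr]

end Vale.Agent.H97
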