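import Vale.Agent.H30.Fz.H97GDer
import Vale.Agent.H30.Fz.H45WDer
import Vale.Agent.H30.Fz.H1Eta

/-!
TASK GDER of the P113 development, hypothesis-free form.
-/

namespace Vale.Agent.H97

open Vale.Agent.H30

/-- All derivatives of the lookup function at rational points are computable reals. -/
theorem gfun_deriv_creal :
    CReal (fun p : ℕ × (ℕ × ℕ × ℕ) => iteratedDeriv p.1 gfun (qv p.2)) :=
  gfun_deriv_creal_of
    (fun N => abs_le.2 ⟨le_trans (neg_nonpos.2 (by positivity)) (Vale.Agent.H1.etaW_nonneg N),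
      Vale.Agent.H1.etaW_le N⟩)
    Vale.Agent.H1.etaW_creal
    (Vale.Agent.H45.Wfun_deriv_creal 0 1 (by norm_num))

end Vale.Agent.H97
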