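import Vale.Agent.H30.NS.Core

/-!
Integration by parts on the flat torus: the integral over the unit cube of the divergence of a
differentiable periodic vector field vanishes.
-/

namespace Vale.Agent.H99

open Vale.Agent.H30 MeasureTheory Set

/-- The integral over the unit cube of the divergence of a differentiable, `1`-periodic vector
field with continuous divergence is zero. -/
theorem integral_div_periodic (F : R3 → R3) (hF : Differentiable ℝ F) (hper : Per3 F)
    (hc : Continuous (fun x => ∑ j : Fin 3, pd j (fun y => F y j) x)) :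
    ∫ x in Set.Icc (0 : R3) 1, ∑ j : Fin 3, pd j (fun y => F y j) x = 0 := by
  have hFi : ∀ i : Fin 3, Differentiable ℝ (fun y => F y i) := fun i =>
    differentiable_pi.1 hF i
  have key := integral_divergence_of_hasFDerivAt_off_countable' (n := 2) (E := ℝ)
    (0 : Fin 3 → ℝ) 1 (fun i => zero_le_one) (fun i y => F y i)
    (fun i x => fderiv ℝ (fun y => F y i) x) ∅ countable_empty
    (fun i => (hFi i).continuous.continuousOn)
    (fun x _ i => (hFi i x).hasFDerivAt)
    (hc.continuousOn.integrableOn_compact isCompact_Icc)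
  have hsum : (fun x => ∑ j : Fin 3, pd j (fun y => F y j) x) =
      fun x => ∑ i : Fin 3, fderiv ℝ (fun y => F y i) x (Pi.single i 1) := rfl
  rw [hsum, key]
  apply Finset.sum_eq_zero
  intro i _
  have hfront : ∀ x : Fin 2 → ℝ, F (Fin.insertNth i ((1 : Fin 3 → ℝ) i) x) i =
      F (Fin.insertNth i ((0 : Fin 3 → ℝ) i) x) i := by
    intro x
    have h := hper (Fin.insertNth i ((0 : Fin 3 → ℝ) i) x) (Pi.single i 1)
    have heq : (Fin.insertNth i ((0 : Fin 3 → ℝ) i) x : Fin 3 → ℝ)
        + (fun j => (((Pi.single i 1 : Fin 3 → ℤ) j : ℤ) : ℝ))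
        = Fin.insertNth i ((1 : Fin 3 → ℝ) i) x := by
      funext j
      rcases Fin.eq_self_or_eq_succAbove i j with rfl | ⟨k, rfl⟩
      · simp
      · simp [Pi.single_apply, Fin.succAbove_ne]
    rw [heq] at h
    rw [h]
  simp only [hfront, sub_self]

end Vale.Agent.H99
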